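import Vale.Agent.P307.Ow.EM2

/-! The Hanf number for Boolean members. -/

universe u

open FirstOrder Cardinal Set Function Language

namespace Vale.Agent.P307.Ow

theorem le_of_part_eq' {L : Language.{u, u}} {Λ : Type u} {K₁ K₂ : AEC L}
    (h : K₁.part Λ = K₂.part Λ) (hK : K₁.IsLS #Λ) {N : Type u} [L.Structure N]
    {S : L.Substructure N} (hS : K₁.le S) : K₂.le S := by
  classical
  have hSm := (K₁.mem_of_le _ hS).1
  have hNm := (K₁.mem_of_le _ hS).2
  obtain ⟨G, g1, g2, g3, g4⟩ := AEC.exists_hull' (M := S) hK hSm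
  obtain ⟨H, h1, h2, h3, h4, h5⟩ := AEC.exists_hull (M := N) hK hNm
    (fun F => Subtype.val '' (G (F.subtype (· ∈ S)) : Set S)) (fun F =>
      mk_image_le.trans (g4 _))
  have hcl : ∀ a : Finset N, ∀ b : Finset S,
      (b : Set S) ⊆ {x : S | x.1 ∈ H a} → (G b : Set S) ⊆ {x : S | x.1 ∈ H a} := by
    intro a b hb x hx
    have h6 := h5 a (b.map (Embedding.subtype _)) (by
      intro y hy
      simp only [Finset.coe_map, Embedding.subtype_apply, Set.mem_image] at hy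
      obtain ⟨z, hz, rfl⟩ := hy
      exact hb hz)
    apply h6
    refine ⟨x, ?_, rfl⟩
    have h7 : (b.map (Embedding.subtype _)).subtype (· ∈ S) = b := by
      ext y
      simp only [Finset.mem_subtype, Finset.mem_map, Embedding.subtype_apply]
      constructor
      · rintro ⟨z, hz, hzy⟩
        rwa [← Subtype.ext hzy]
      · intro hy
        exact ⟨y, hy, rfl⟩
    rw [h7]
    exact hx
  have hT : ∀ a : Finset N, K₁.le (H a ⊓ S) := by
    intro a
    obtain ⟨T, hT1, hT2⟩ := AEC.le_of_hull_closed g1 g2 g3 {x : S | x.1 ∈ H a} (hcl a)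
    have h6 := K₁.le_trans S T hT1 hS
    convert h6 using 1
    ext x
    constructor
    · rintro ⟨hx1, hx2⟩
      refine ⟨⟨x, hx2⟩, ?_, rfl⟩
      rw [hT2]
      exact hx1
    · rintro ⟨y, hy, rfl⟩
      change y ∈ (T : Set S) at hy
      rw [hT2] at hy
      exact ⟨hy, y.2⟩
  have hH2 : K₂.mem N ∧ ∀ a, K₂.le (H a) := by
    refine AEC.mem_of_finset_union (K := K₂) H h2 (fun a b hab => ?_) (fun x => ?_)
    · exact le_of_part_eq h (h4 b) (K₁.coherence _ _ (h2 hab) (h1 a) (h1 b))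
    · exact ⟨{x}, h3 {x} (by simp)⟩
  have hT2 : ∀ a : Finset N, K₂.le (H a ⊓ S) := by
    intro a
    have h6 : K₂.le ((H a ⊓ S).comap (H a).subtype.toHom) :=
      le_of_part_eq h (h4 a) (K₁.coherence _ _ inf_le_left (hT a) (h1 a))
    exact ((AEC.sle_iff (inf_le_left : H a ⊓ S ≤ H a)).2 h6).le_of_le (hH2.2 a)
  have h7 := AEC.le_iSup_finset (K := K₂) (fun a : Finset N => H a ⊓ S)
    (fun a b hab => inf_le_inf_right _ (h2 hab)) hT2
  have h8 : (⨆ a : Finset N, H a ⊓ S) = S := by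
    apply le_antisymm
    · exact iSup_le fun a => inf_le_right
    · intro x hx
      exact le_iSup (fun a : Finset N => H a ⊓ S) {x} ⟨h3 {x} (by simp), hx⟩
  rwa [h8] at h7

theorem isBoolean_of_part_eq {L : Language.{u, u}} {Λ : Type u} {K₁ K₂ : AEC L}
    (h : K₁.part Λ = K₂.part Λ) (hK₁ : K₁.IsLS #Λ) (hK₂ : K₂.IsLS #Λ) {M : Type u}
    [L.Structure M] (hB : H227.IsBoolean K₁ M) : H227.IsBoolean K₂ M := by
  obtain ⟨X, ⟨e⟩⟩ := hB
  exact ⟨X, ⟨e.trans
    { toFun := fun S => ⟨S.1, le_of_part_eq' h hK₁ S.2⟩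
      invFun := fun S => ⟨S.1, le_of_part_eq' h.symm hK₂ S.2⟩
      left_inv := fun _ => rfl
      right_inv := fun _ => rfl
      map_rel_iff' := Iff.rfl }⟩⟩

section up

variable {L L' : Language.{u, u}} {φ : L →ᴸ L'}

theorem dn_injective {N : Type u} [L'.Structure N] : Injective (dn φ (N := N)) := by
  intro S T h
  have h1 : ((dn φ S : L.Substructure (Dn φ N)) : Set (Dn φ N)) = dn φ T := by rw [h]
  exact SetLike.coe_injective h1

theorem isBoolean_up (K : AEC L) (hf : ∀ n, Function.Bijective (φ.onFunction (n := n)))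
    (hr : ∀ n, Function.Surjective (φ.onRelation (n := n))) (M : Type u) [L'.Structure M] :
    H227.IsBoolean (K.up φ hf hr) M ↔ H227.IsBoolean K (Dn φ M) := by
  let e : {S : L'.Substructure M // (K.up φ hf hr).le S} ≃o
      {S : L.Substructure (Dn φ M) // K.le S} :=
    { toEquiv := Equiv.ofBijective (fun S => ⟨dn φ S.1, S.2⟩) ⟨fun S T h => Subtype.ext
        (dn_injective (congrArg Subtype.val h)), fun T => by
          obtain ⟨S, hS⟩ := exists_up (fun n => (hf n).2) T.1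
          refine ⟨⟨S, ?_⟩, Subtype.ext hS⟩
          change K.le (dn φ S)
          rw [hS]
          exact T.2⟩
      map_rel_iff' := Iff.rfl }
  constructor
  · rintro ⟨X, ⟨f⟩⟩
    exact ⟨X, ⟨f.trans e⟩⟩
  · rintro ⟨X, ⟨f⟩⟩
    exact ⟨X, ⟨f.trans e.symm⟩⟩

end up

/-- The cardinalities of the Boolean members of the classes with a given code. -/
def bspec {Λ : Type u} (c : CodeTy Λ) : Set Cardinal.{u} :=
  {κ | ∃ K : AEC (canLang c.1.1 c.1.2), K.IsLS #Λ ∧ K.part Λ = c.2 ∧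
    ∃ (M : Type u) (_ : (canLang c.1.1 c.1.2).Structure M), K.mem M ∧ #M = κ ∧
      H227.IsBoolean K M}

theorem exists_bcode {Λ : Type u} {L : Language.{u, u}} (K : AEC L) (hK : K.IsLS #Λ) :
    ∃ c : CodeTy Λ, ∀ κ, κ ∈ bspec c ↔ ∃ (M : Type u) (_ : L.Structure M), K.mem M ∧ #M = κ ∧
      H227.IsBoolean K M := by
  obtain ⟨A, B, φ, hf, hr⟩ := exists_canLang L Λ hK.2.1
  let K' : AEC (canLang A B) := K.up φ hf (fun n => (hr n).2)
  have hK' : K'.IsLS #Λ := AEC.up_isLS hf (fun n => (hr n).2) hK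
  refine ⟨⟨(A, B), K'.part Λ⟩, fun κ => ?_⟩
  constructor
  · rintro ⟨K'', h1, h2, M, _, h3, h4, h5⟩
    have h6 : H227.IsBoolean K' M := isBoolean_of_part_eq h2 h1 hK' h5
    exact ⟨Dn φ M, inferInstance, mem_of_part_eq h2 h1 h3, h4,
      (isBoolean_up K hf (fun n => (hr n).2) M).1 h6⟩
  · rintro ⟨M, _, h3, h4, h5⟩
    obtain ⟨s, ⟨e⟩⟩ := exists_expand hf hr M
    have h6 : K.mem (Dn φ M) := K.mem_iso e h3
    have h7 : H227.IsBoolean K (Dn φ M) :=
      isBoolean_of_emb e.symm.toEmbedding (AEC.Emb.of_equiv e.symm h6) h5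
    exact ⟨K', hK', rfl, M, s, h6, h4, (isBoolean_up K hf (fun n => (hr n).2) M).2 h7⟩

/-- The Hanf number for Boolean members. -/
theorem exists_mu_boolean (l : Cardinal.{u}) : ∃ μ : Cardinal.{u}, ∀ (L : Language.{u, u})
    (K : AEC L), K.LS ≤ l → (∃ (M : Type u) (_ : L.Structure M), K.mem M ∧ μ ≤ #M ∧
      H227.IsBoolean K M) → ∀ a : Cardinal.{u}, ∃ (M : Type u) (_ : L.Structure M),
        K.mem M ∧ a ≤ #M ∧ H227.IsBoolean K M := by
  obtain ⟨Λ, hΛ⟩ : ∃ Λ : Type u, #Λ = l := ⟨l.out, mk_out l⟩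
  have h : ∀ c : CodeTy Λ, ∃ b : Cardinal.{u}, (∀ κ ∈ bspec c, κ ≤ b) ∨
      ∀ b', ∃ κ ∈ bspec c, b' < κ := by
    intro c
    by_cases hb : ∃ b : Cardinal.{u}, ∀ κ ∈ bspec c, κ ≤ b
    · obtain ⟨b, hb⟩ := hb
      exact ⟨b, Or.inl hb⟩
    · push Not at hb
      exact ⟨0, Or.inr hb⟩
  choose b hb using h
  have hbdd : BddAbove (Set.range b) := bddAbove_of_small
  refine ⟨Order.succ (⨆ c, b c), ?_⟩
  rintro L K hK ⟨M, _, h1, h2, h3⟩ a
  obtain ⟨c, hc⟩ := exists_bcode (Λ := Λ) K (AEC.isLS_of_LS_le (hK.trans hΛ.ge))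
  rcases hb c with h4 | h4
  · exfalso
    have h5 : #M ≤ b c := h4 _ ((hc _).2 ⟨M, inferInstance, h1, rfl, h3⟩)
    have h6 : b c < #M := (Order.lt_succ_of_le (le_ciSup hbdd c)).trans_le h2
    exact absurd h5 (not_le.2 h6)
  · obtain ⟨κ, h5, h6⟩ := h4 a
    obtain ⟨M', i, h7, h8, h9⟩ := (hc κ).1 h5
    exact ⟨M', i, h7, by rw [h8]; exact h6.le, h9⟩

end Vale.Agent.P307.Ow
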