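import Vale.Agent.P307.Ow.Chain

/-! Functors on linear orders with glueing along chains and with moves are flasque. -/

universe u

namespace Vale.Agent.P307.Ow

open Cardinal Set Function Sys Tw

section

variable {S : Sys.{u}} {h : Cardinal.{u} → Cardinal.{u}}

theorem sys_stable (hh : IsHanf S h) {X Y Z : Type u} [LinearOrder X] [LinearOrder Y]
    [LinearOrder Z] (i : X ↪o Y) (j : Y ↪o Z) (h1 : h #X ≤ #Y) (h2 : #X < #Z) (h3 : ℵ₀ ≤ #Z)
    (g : S.Γ Y) : ∃ δ : S.Γ Z, S.res (i.trans j) δ = S.res i g := by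
  have e1 : Ext (fun _ : X => ()) ∅ Set.univ (S.res i g) (h #X) :=
    ⟨Y, inferInstance, fun _ => (), i, g, fun _ => rfl, rfl,
      fun a ha => absurd ha (notMem_empty a),
      fun y hy => absurd (mem_univ _) hy, fun a _ => by
        refine h1.trans (mk_congr ?_).le
        exact (Equiv.subtypeUnivEquiv fun y => rfl).symm⟩
  obtain ⟨W, _, c', i2, δ', -, h5, -, -, h6⟩ := hh _ _ _ _ _ _ e1 #Z
  have h7 : #Z ≤ #W := (h6 () (mem_univ _)).trans (mk_subtype_le _)
  obtain ⟨e, he⟩ := extend_embedding (i.trans j).toEmbedding i2.toEmbedding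
    (h2.trans_le h7) h7 (h3.trans h7)
  have he' : ∀ x, e (j (i x)) = i2 x := fun x => congrArg (fun f => f x) he
  obtain ⟨a, -, ha⟩ := S.mv e (range (i.trans j)) e.injective (by
    rintro _ ⟨x, rfl⟩ _ ⟨y, rfl⟩
    change e (j (i x)) ≤ e (j (i y)) ↔ j (i x) ≤ j (i y)
    rw [he', he', i2.le_iff_le, j.le_iff_le, i.le_iff_le]) δ'
  let k : X ↪o ↥(range (i.trans j)) :=
    { toFun := fun x => ⟨i.trans j x, x, rfl⟩
      inj' := fun x y hxy => (i.trans j).injective
        (congrArg (fun z : ↥(range (i.trans j)) => z.1) hxy)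
      map_rel_iff' := fun {x y} => (i.trans j).map_rel_iff' }
  let e' : ↥(range (i.trans j)) ↪o W :=
    { toFun := fun x => e x.1
      inj' := fun x y hxy => Subtype.ext (e.injective hxy)
      map_rel_iff' := by
        rintro ⟨_, x, rfl⟩ ⟨_, y, rfl⟩
        change e (j (i x)) ≤ e (j (i y)) ↔ j (i x) ≤ j (i y)
        rw [he', he', i2.le_iff_le, j.le_iff_le, i.le_iff_le] }
  refine ⟨a, ?_⟩
  have h8 := congrArg (S.res k) (ha e' fun _ => rfl)
  rw [S.res_trans, S.res_trans] at h8
  have h9 : k.trans e' = i2 := by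
    ext x
    exact he' x
  rw [h9, h5] at h8
  exact h8

theorem sys_surj (hh : IsHanf S h) {X Y : Type u} [LinearOrder X] [LinearOrder Y] (i : X ↪o Y)
    (hX : th h ≤ #X) : Surjective (S.res i) := by
  classical
  intro g
  let c : Y → Option Unit := fun y => if y ∈ range i then none else some ()
  have hc : ∀ y, y ∈ face c () ↔ y ∈ range i := by
    intro y
    change c y ≠ some () ↔ _
    by_cases hy : y ∈ range i
    · refine iff_of_true ?_ hy
      rw [show c y = none from if_pos hy]
      simp
    · refine iff_of_false ?_ hy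
      rw [show c y = some () from if_neg hy]
      simp
  have he : ∀ y : ↥(Set.univ ∩ face c ()), i ((hc y.1).1 y.2.2).choose = y.1 :=
    fun y => ((hc y.1).1 y.2.2).choose_spec
  let e : ↥(Set.univ ∩ face c ()) ↪o X :=
    { toFun := fun y => ((hc y.1).1 y.2.2).choose
      inj' := fun y y' hyy => Subtype.ext (by
        rw [← he y, ← he y']
        exact congrArg i hyy)
      map_rel_iff' := fun {y y'} => by
        rw [← Subtype.coe_le_coe, ← he y, ← he y', i.le_iff_le]
        change ((hc y.1).1 y.2.2).choose ≤ ((hc y'.1).1 y'.2.2).choose ↔ _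
        rfl }
  obtain ⟨g', hg'⟩ := solv hh _ (Set.univ : Set Y) rfl Unit c (by
    refine hX.trans ?_
    apply mk_le_of_injective (f := fun x : X => (⟨i x, mem_univ _, by
      simp [c]⟩ : {y // y ∈ Set.univ ∧ c y = none}))
    intro x x' hxx
    simp only [Subtype.mk.injEq] at hxx
    exact i.injective hxx) (fun _ => S.res e g) (fun _ _ => rfl)
  have h1 := hg' () (Set.mem_univ _)
  let i0 : X ↪o ↥(Set.univ ∩ face c ()) :=
    { toFun := fun x => ⟨i x, mem_univ _, (hc _).2 ⟨x, rfl⟩⟩
      inj' := fun x x' hxx => i.injective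
        (congrArg (fun z : ↥(Set.univ ∩ face c ()) => z.1) hxx)
      map_rel_iff' := fun {x x'} => i.le_iff_le }
  refine ⟨S.res (toU Y) g', ?_⟩
  have h2 := congrArg (S.res i0) h1
  rw [res_r, res_r, S.res_trans] at h2
  rw [S.res_trans]
  have h3 : (i0.trans (inc (inter_subset_inter_left (face c ())
      (Subset.rfl : (Set.univ : Set Y) ⊆ Set.univ)))).trans e =
      (RelEmbedding.refl (· ≤ ·) : X ↪o X) := by
    ext x
    apply i.injective
    exact he ((i0.trans (inc (inter_subset_inter_left (face c ())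
      (Subset.rfl : (Set.univ : Set Y) ⊆ Set.univ)))) x)
  rw [h3, S.res_refl] at h2
  exact h2

end

/-- Every functor on linear orders with glueing along chains and with moves is flasque. -/
theorem OSys.flasque (S : OSys.{u}) : S.Flasque := by
  intro C hC
  obtain ⟨h0, hh0⟩ := exists_isHanf S.toSys
  choose pick hpick hle using hC
  let h : Cardinal.{u} → Cardinal.{u} := fun x => pick (max (Order.succ x) (h0 x))
  have hh : IsHanf S.toSys h := fun C _ X _ c F J δ hE b => hh0 C X c F J δ
    (hE.mono ((le_max_right _ _).trans (hle _))) b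
  have hlam : ∀ n, lam h (n + 1) = h (lam h n) := fun n =>
    max_eq_right ((le_max_left _ _).trans (hle _))
  have hth : (⨆ n, lam h (n + 1)) = th h := by
    apply le_antisymm
    · exact ciSup_le' fun n => lam_le_th (n + 1)
    · exact ciSup_le' fun n => (lam_lt_succ n).le.trans
        (le_ciSup (f := fun n => lam h (n + 1)) bddAbove_of_small n)
  refine ⟨fun n => lam h (n + 1), fun m n hmn => lam_strictMono (by omega), fun n => ?_,
    aleph0_le_lam 1, ?_, ?_⟩
  · change lam h (n + 1) ∈ C
    rw [hlam]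
    exact hpick _
  · intro n X Y Z _ _ _ i j hX hY hZ g
    simp only at hX hY hZ
    exact sys_stable (S := S.toSys) hh i j (by rw [hX, hY]; exact hanf_le _)
      (by rw [hX, hZ]; exact lam_strictMono (by omega)) (by rw [hZ]; exact aleph0_le_lam _) g
  · intro X Y _ _ i hXY hX
    simp only at hX
    rw [hth] at hX
    exact sys_surj (S := S.toSys) hh i hX

end Vale.Agent.P307.Ow
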