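import Vale.Agent.P307.Ow.Code
import Vale.Agent.P307.H227.OrdTop

/-! Categoricity transfer for classes with one large Boolean member. -/

universe u

open FirstOrder Cardinal Set Function Language

namespace Vale.Agent.P307.Ow

theorem exists_mu_cat (l : Cardinal.{u}) : ∃ μ : Cardinal.{u}, ∀ (L : Language.{u, u})
    (K : AEC L), K.LS ≤ l → (∃ κ, μ ≤ κ ∧ K.CategoricalIn κ) →
      ∀ a : Cardinal.{u}, ∃ κ, a ≤ κ ∧ K.CategoricalIn κ := by
  obtain ⟨Λ, hΛ⟩ : ∃ Λ : Type u, #Λ = l := ⟨l.out, mk_out l⟩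
  have h : ∀ c : CodeTy Λ, ∃ b : Cardinal.{u}, (∀ κ ∈ spec c, κ ≤ b) ∨
      ∀ b', ∃ κ ∈ spec c, b' < κ := by
    intro c
    by_cases hb : ∃ b : Cardinal.{u}, ∀ κ ∈ spec c, κ ≤ b
    · obtain ⟨b, hb⟩ := hb
      exact ⟨b, Or.inl hb⟩
    · push Not at hb
      exact ⟨0, Or.inr hb⟩
  choose b hb using h
  have hbdd : BddAbove (Set.range b) := bddAbove_of_small
  refine ⟨Order.succ (⨆ c, b c), ?_⟩
  rintro L K hK ⟨κ, hκ, hcat⟩ a
  obtain ⟨c, hc, -⟩ := exists_code (Λ := Λ) K (AEC.isLS_of_LS_le (hK.trans hΛ.ge))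
  rcases hb c with h4 | h4
  · exfalso
    have h5 : κ ≤ b c := h4 _ ((hc _).2 hcat)
    have h6 : b c < κ := (Order.lt_succ_of_le (le_ciSup hbdd c)).trans_le hκ
    exact absurd h5 (not_le.2 h6)
  · obtain ⟨κ', h5, h6⟩ := h4 a
    exact ⟨κ', h6.le, (hc κ').1 h5⟩

theorem boolean_of_large {L : Language.{u, u}} {K : AEC L} {κ : Cardinal.{u}} (hκ : K.LS ≤ κ)
    (hcat : K.CategoricalIn κ)
    (hbool : ∀ a : Cardinal.{u}, ∃ (M : Type u) (_ : L.Structure M), K.mem M ∧ a ≤ #M ∧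
      H227.IsBoolean K M) (M : Type u) [L.Structure M] (hM : K.mem M) (hMκ : #M = κ) :
    H227.IsBoolean K M := by
  have hK : K.IsLS K.LS := AEC.isLS_LS K
  obtain ⟨N, _, hN1, hN2, hN3⟩ := hbool κ
  obtain ⟨A, hA⟩ := le_mk_iff_exists_set.1 hN2
  obtain ⟨S, hS1, hS2, hS3⟩ := hK.2.2 N hN1 A
  have hSκ : #S = κ := by
    apply le_antisymm
    · exact hS3.trans (add_le_of_le (hK.1.trans hκ) hA.le hκ)
    · rw [← hA]
      exact mk_le_mk_of_subset hS2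
  have hB : H227.IsBoolean K S := isBoolean_of_emb S.subtype (AEC.emb_subtype.2 hS1) hN3
  obtain ⟨e⟩ := hcat.2 M S hM (K.mem_of_le _ hS1).1 hMκ hSκ
  exact isBoolean_of_emb e.toEmbedding (AEC.Emb.of_equiv e hM) hB

/-- Q1 for the classes with one Boolean member of large cardinality. -/
theorem q1_boolean (l : Cardinal.{u}) :
    ∃ μ : Cardinal.{u}, l ≤ μ ∧ ∀ (L : Language.{u, u}) (K : AEC L), K.LS ≤ l →
      (∃ (M : Type u) (_ : L.Structure M), K.mem M ∧ μ ≤ #M ∧ H227.IsBoolean K M) →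
      (∃ κ : Cardinal.{u}, μ ≤ κ ∧ K.CategoricalIn κ) →
        ∀ κ' : Cardinal.{u}, μ ≤ κ' → K.CategoricalIn κ' ∧
          ∀ (M : Type u) [L.Structure M], K.mem M → #M = κ' → H227.IsBoolean K M := by
  obtain ⟨μ₀, hμ₀, hμ⟩ := H67.exists_threshold l
  obtain ⟨μ₁, hμ₁⟩ := exists_mu_boolean l
  obtain ⟨μ₂, hμ₂⟩ := exists_mu_cat l
  refine ⟨max μ₀ (max μ₁ μ₂), hμ₀.trans (le_max_left _ _), ?_⟩
  rintro L K hK ⟨M, i, h1, h2, h3⟩ ⟨κ, hκ, hcat⟩ κ' hκ'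
  have hb := hμ₁ L K hK ⟨M, i, h1, ((le_max_left _ _).trans (le_max_right _ _)).trans h2, h3⟩
  have hc := hμ₂ L K hK ⟨κ, ((le_max_right _ _).trans (le_max_right _ _)).trans hκ, hcat⟩
  obtain ⟨F⟩ := exists_ordFamily_of_large K hc hb
  have h4 := hμ L K hK (H227.eventually_of_ordFamily F hc) κ' ((le_max_left _ _).trans hκ')
  refine ⟨h4, fun M _ hM hMκ => boolean_of_large ?_ h4 hb M hM hMκ⟩
  exact (hK.trans hμ₀).trans ((le_max_left _ _).trans hκ')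

end Vale.Agent.P307.Ow
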