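import Vale.Agent.P307.Ow.Lat

/-! Ehrenfeucht-Mostowski functors of abstract elementary classes. -/

universe u

open FirstOrder Cardinal Set Function Language

namespace Vale.Agent.P307.Ow

open Language.Structure

theorem exists_emb_of_atEq {L₁ : Language.{u, u}} {M N Q : Type u} [L₁.Structure M]
    [L₁.Structure N] {b : Q → M} {b' : Q → N} (h : AtEq L₁ b b')
    (htop : Substructure.closure L₁ (range b) = ⊤) :
    ∃ g : M ↪[L₁] N, ∀ t : L₁.Term Q, g (t.realize b) = t.realize b' := by
  have h1 : ∀ x : M, ∃ t : L₁.Term Q, t.realize b = x := fun x =>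
    Gr.mem_closure_range.1 (by rw [htop]; trivial)
  choose T hT using h1
  have h2 : ∀ t : L₁.Term Q, (T (t.realize b)).realize b' = t.realize b' := fun t =>
    (h.1 _ _).1 (hT _)
  refine ⟨{ toFun := fun x => (T x).realize b', inj' := ?_, map_fun' := ?_, map_rel' := ?_ }, h2⟩
  · intro x y hxy
    have := (h.1 (T x) (T y)).2 hxy
    rwa [hT, hT] at this
  · intro n f x
    have h3 : funMap f x = (Term.func f fun i => T (x i)).realize b := by
      simp only [Term.realize_func, hT]
    rw [h3, h2]
    simp only [Term.realize_func]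
    rfl
  · intro n r x
    have h3 := h.2 n r fun i => T (x i)
    simp only [hT] at h3
    exact h3.symm

theorem strictMono_pair {X : Type*} [LinearOrder X] {i j : X} (h : i < j) :
    StrictMono ![i, j] := by
  intro k l hkl
  fin_cases k <;> fin_cases l
  · exact absurd hkl (lt_irrefl _)
  · exact h
  · exact absurd hkl (by decide)
  · exact absurd hkl (lt_irrefl _)

/-- A class with arbitrarily large members has a functor from linear orders with strong embeddings
which separates points. -/
theorem exists_preFamily {L : Language.{u, u}} (K : AEC L)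
    (hbig : ∀ χ : Cardinal.{u}, ∃ (M : Type u) (_ : L.Structure M), K.mem M ∧ χ ≤ #M) :
    Nonempty (PreFamily K) := by
  classical
  have hK : K.IsLS K.LS := AEC.isLS_LS K
  set ℓ := K.LS with hℓdef
  have hℓ := hK.1
  obtain ⟨M₀, hM₀, h3, h4⟩ := hbig (max (hanf (2 ^ ℓ)) ℓ)
  obtain ⟨Λ, hΛ⟩ : ∃ Λ : Type u, #Λ = ℓ := ⟨ℓ.out, mk_out ℓ⟩
  have hne : Nonempty M₀ := by
    rw [← mk_ne_zero_iff]
    exact ((aleph0_pos.trans_le (hℓ.trans (le_max_right _ _))).trans_le h4).ne'
  obtain ⟨sk, hsk⟩ := exists_skolem hK h3 Λ hΛ
  have hL : (exLang L Λ).card ≤ ℓ := card_exLang_le hℓ hK.2.1 hΛ.le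
  obtain ⟨x⟩ : Nonempty ((#M₀).ord.ToType ≃ M₀) := Cardinal.eq.1 (by rw [mk_ord_toType])
  obtain ⟨a', ha1, ha2'⟩ := exists_template (L := exLang L Λ) hℓ hL x (by
    rw [mk_ord_toType]
    exact (le_max_left _ _).trans h4)
  have ha3' : x (a' 2 0) ≠ x (a' 2 1) := fun h =>
    absurd (x.injective h) (ha1 2 (show (0 : Fin 2) < 1 by decide)).ne
  obtain ⟨a, ha2, ha3⟩ : ∃ a : ∀ n : ℕ, Fin n → M₀, IsTemplate (exLang L Λ) a ∧ a 2 0 ≠ a 2 1 :=
    ⟨fun n i => x (a' n i), ha2', ha3'⟩
  choose N hN c hc htop using fun (I : Type u) (lo : LinearOrder I) =>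
    exists_isEM (L := exLang L Λ) (M := M₀) ha2 I
  let str : ∀ (I : Type u) (lo : LinearOrder I), L.Structure (N I lo) := fun I lo =>
    (exHom L Λ).reduct (N I lo)
  have hexp : ∀ (I : Type u) (lo : LinearOrder I), (exHom L Λ).IsExpansionOn (N I lo) :=
    fun I lo => Language.LHom.isExpansionOn_reduct _ _
  have hem : ∀ (I : Type u) (lo : LinearOrder I) (J : Set I),
      K.le ((exHom L Λ).substructureReduct (Substructure.closure (exLang L Λ) (c I lo '' J))) :=
    fun I lo J => (em_le (K := K) (exHom L Λ) (hc I lo) (htop I lo) hsk).2 J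
  have hat : ∀ (I J : Type u) (lo : LinearOrder I) (lo' : LinearOrder J) (f : I ↪o J),
      AtEq (exLang L Λ) (c I lo) (fun i => c J lo' (f i)) := by
    intro I J lo lo' f
    exact IsEM.pattern (hc I lo) (hc J lo') (fun i => i) (fun i => f i)
      (fun p q => f.le_iff_le.symm)
  choose g hg using fun (I J : Type u) (lo : LinearOrder I) (lo' : LinearOrder J) (f : I ↪o J) =>
    exists_emb_of_atEq (hat I J lo lo' f) (htop I lo)
  have hterm : ∀ (I : Type u) (lo : LinearOrder I) (y : N I lo),
      ∃ t : (exLang L Λ).Term I, t.realize (c I lo) = y := fun I lo y =>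
    Gr.mem_closure_range.1 (by rw [htop]; trivial)
  have hrange : ∀ (I J : Type u) (lo : LinearOrder I) (lo' : LinearOrder J) (f : I ↪o J),
      (Gr.embReduct (exHom L Λ) (g I J lo lo' f)).toHom.range =
        (exHom L Λ).substructureReduct
          (Substructure.closure (exLang L Λ) (c J lo' '' range f)) := by
    intro I J lo lo' f
    have h5 : c J lo' '' range f = range (fun i => c J lo' (f i)) := by
      rw [← range_comp]
      rfl
    rw [h5]
    ext y
    constructor
    · rintro ⟨z, rfl⟩
      obtain ⟨t, rfl⟩ := hterm I lo z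
      refine Gr.mem_closure_range.2 ⟨t, ?_⟩
      exact (hg I J lo lo' f t).symm
    · intro hy
      obtain ⟨t, rfl⟩ := Gr.mem_closure_range.1 hy
      exact ⟨t.realize (c I lo), hg I J lo lo' f t⟩
  -- terms in one element do not give another element
  have hsep : ∀ (J : Type u) (lo : LinearOrder J) (i j : J), i ≠ j →
      c J lo j ∉ Substructure.closure (exLang L Λ) (c J lo '' {i}) := by
    intro J lo i j hij hmem
    rw [mem_closure_image_iff] at hmem
    obtain ⟨t0, ht0⟩ := hmem
    let t : (exLang L Λ).Term Unit := t0.relabel fun _ => ()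
    have ht : t.realize (fun _ => c J lo i) = c J lo j := by
      rw [← ht0]
      simp only [t, Term.realize_relabel]
      congr 1
      funext q
      exact congrArg _ q.2.symm
    rcases lt_or_gt_of_ne hij with h5 | h5
    · have hs : StrictMono ![i, j] := strictMono_pair h5
      have h6 := (hc J lo 2 ![i, j] hs).1 (t.relabel fun _ => 0) (Term.var 1)
      simp only [Term.realize_var, Term.realize_relabel] at h6
      have h7 : t.realize ((a 2) ∘ fun _ => 0) = a 2 1 := h6.1 (by
        have : ((fun k => c J lo (![i, j] k)) ∘ fun _ : Unit => (0 : Fin 2)) =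
            fun _ => c J lo i := by
          funext q
          rfl
        rw [this, ht]
        rfl)
      have h8 : ∀ (k l : Fin 3), k < l → t.realize (fun _ => a 3 k) = a 3 l := by
        intro k l hkl
        have hs2 : StrictMono ![k, l] := strictMono_pair hkl
        have h9 := (ha2 2 3 ![k, l] hs2).1 (t.relabel fun _ => 0) (Term.var 1)
        simp only [Term.realize_var, Term.realize_relabel] at h9
        exact h9.2 h7
      have h9 : a 3 1 = a 3 2 := by
        rw [← h8 0 1 (by decide), ← h8 0 2 (by decide)]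
      have hs3 : StrictMono ![(1 : Fin 3), 2] := strictMono_pair (by decide)
      have h10 := (ha2 2 3 ![1, 2] hs3).1 (Term.var 0) (Term.var 1)
      simp only [Term.realize_var] at h10
      exact ha3 (h10.1 h9)
    · have hs : StrictMono ![j, i] := strictMono_pair h5
      have h6 := (hc J lo 2 ![j, i] hs).1 (t.relabel fun _ => 1) (Term.var 0)
      simp only [Term.realize_var, Term.realize_relabel] at h6
      have h7 : t.realize ((a 2) ∘ fun _ => 1) = a 2 0 := h6.1 (by
        have : ((fun k => c J lo (![j, i] k)) ∘ fun _ : Unit => (1 : Fin 2)) =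
            fun _ => c J lo i := by
          funext q
          rfl
        rw [this, ht]
        rfl)
      have h8 : ∀ (k l : Fin 3), k < l → t.realize (fun _ => a 3 l) = a 3 k := by
        intro k l hkl
        have hs2 : StrictMono ![k, l] := strictMono_pair hkl
        have h9 := (ha2 2 3 ![k, l] hs2).1 (t.relabel fun _ => 1) (Term.var 0)
        simp only [Term.realize_var, Term.realize_relabel] at h9
        exact h9.2 h7
      have h9 : a 3 0 = a 3 1 := by
        rw [← h8 0 2 (by decide), ← h8 1 2 (by decide)]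
      have hs3 : StrictMono ![(0 : Fin 3), 1] := strictMono_pair (by decide)
      have h10 := (ha2 2 3 ![0, 1] hs3).1 (Term.var 0) (Term.var 1)
      simp only [Term.realize_var] at h10
      exact ha3 (h10.1 h9)
  refine ⟨{ obj := fun I lo => N I lo, str := fun I lo => str I lo,
            map := fun {I J lo lo'} f => Gr.embReduct (exHom L Λ) (g I J lo lo' f),
            map_refl := ?_, map_trans := ?_, emb := ?_, sep := ?_ }⟩
  · intro I lo y
    obtain ⟨t, rfl⟩ := hterm I lo y
    exact hg I I lo lo _ t
  · intro I J T lo lo' lo'' i j y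
    obtain ⟨t, rfl⟩ := hterm I lo y
    have h5 := hg I T lo lo'' (i.trans j) t
    have h6 := hg I J lo lo' i t
    have h7 := hg J T lo' lo'' j (t.relabel i)
    rw [Term.realize_relabel, Term.realize_relabel] at h7
    change g I T lo lo'' (i.trans j) _ = g J T lo' lo'' j (g I J lo lo' i _)
    rw [h5, h6]
    exact h7.symm
  · intro I J lo lo' f
    unfold AEC.Emb
    rw [hrange]
    exact hem J lo' _
  · intro I J lo lo' _ hI f f' hff h
    obtain ⟨i⟩ := hI
    rw [hrange, hrange] at h
    have h5 : ∀ k : I ↪o J, range k = {k i} := by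
      intro k
      ext y
      constructor
      · rintro ⟨z, rfl⟩
        rw [Subsingleton.elim z i]
        exact mem_singleton _
      · rintro rfl
        exact ⟨i, rfl⟩
    rw [h5, h5] at h
    have h6 : f i ≠ f' i := by
      intro h6
      apply hff
      ext z
      rw [Subsingleton.elim z i, h6]
    apply hsep J lo' (f i) (f' i) h6
    have h7 : c J lo' (f' i) ∈ (exHom L Λ).substructureReduct
        (Substructure.closure (exLang L Λ) (c J lo' '' {f' i})) :=
      Substructure.subset_closure ⟨_, rfl, rfl⟩
    rw [← h] at h7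
    exact h7

/-- **Row (I).** -/
theorem exists_ordFamily {L : Language.{u, u}} (K : AEC L)
    (hB : ∀ (M : Type u) [L.Structure M], K.mem M → H227.IsBoolean K M)
    (hbig : ∀ χ : Cardinal.{u}, ∃ (M : Type u) (_ : L.Structure M), K.mem M ∧ χ ≤ #M) :
    Nonempty (H227.OrdFamily K) := by
  obtain ⟨P⟩ := exists_preFamily K hbig
  exact P.exists_ordFamily hB

end Vale.Agent.P307.Ow
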