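import Vale.Agent.P307.H227.Ord

/-! Strong embeddings between members whose strong substructures form power sets. -/

universe u

open FirstOrder Cardinal Set Function Language

namespace Vale.Agent.P307.Ow

variable {L : Language.{u, u}} {K : AEC L}

theorem exists_lower {X Y : Type u} (g : Set X → Set Y) (h1 : ∀ A B, g A ⊆ g B ↔ A ⊆ B)
    (h2 : ∀ A B, B ⊆ g A → ∃ A', g A' = B) : ∃ f : X ↪ Y, ∀ A, g A = f '' A := by
  have h0 : g ∅ = ∅ := by
    obtain ⟨A', hA'⟩ := h2 ∅ ∅ (empty_subset _)
    have h3 := (h1 ∅ A').2 (empty_subset _)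
    rw [hA'] at h3
    exact subset_empty_iff.1 h3
  have hs : ∀ x y, y ∈ g {x} → g {x} = {y} := by
    intro x y hy
    obtain ⟨A', hA'⟩ := h2 {x} {y} (singleton_subset_iff.2 hy)
    have h3 : A' ⊆ {x} := by
      rw [← h1, hA']
      exact singleton_subset_iff.2 hy
    rcases subset_singleton_iff_eq.1 h3 with h4 | h4
    · rw [h4, h0] at hA'
      exact absurd (hA'.symm ▸ mem_singleton y) (notMem_empty y)
    · rw [← h4, hA']
  have he : ∀ x, ∃ y, g {x} = {y} := by
    intro x
    have hne : (g {x}).Nonempty := by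
      rw [nonempty_iff_ne_empty]
      intro h3
      have h4 : g {x} ⊆ g ∅ := by rw [h3]; exact empty_subset _
      exact absurd ((h1 _ _).1 h4 (mem_singleton x)) (notMem_empty x)
    obtain ⟨y, hy⟩ := hne
    exact ⟨y, hs x y hy⟩
  choose f hf using he
  refine ⟨⟨f, ?_⟩, ?_⟩
  · intro x x' hxx
    have h3 : g {x} ⊆ g {x'} := by rw [hf, hf, hxx]
    exact (h1 _ _).1 h3 (mem_singleton x)
  · intro A
    ext y
    constructor
    · intro hy
      obtain ⟨A', hA'⟩ := h2 A {y} (singleton_subset_iff.2 hy)
      have h3 : A' ⊆ A := by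
        rw [← h1, hA']
        exact singleton_subset_iff.2 hy
      rcases A'.eq_empty_or_nonempty with h4 | ⟨x, hx⟩
      · rw [h4, h0] at hA'
        exact absurd (hA'.symm ▸ mem_singleton y) (notMem_empty y)
      · have h5 := (h1 {x} A').2 (singleton_subset_iff.2 hx)
        rw [hA', hf] at h5
        exact ⟨x, h3 hx, h5 (mem_singleton _)⟩
    · rintro ⟨x, hx, rfl⟩
      have h5 := (h1 {x} A).2 (singleton_subset_iff.2 hx)
      rw [hf] at h5
      exact h5 (mem_singleton _)

section

variable {M N : Type u} [L.Structure M] [L.Structure N]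

theorem le_map (φ : M ↪[L] N) (hφ : K.Emb φ) {S : L.Substructure M} (hS : K.le S) :
    K.le (S.map φ.toHom) := by
  have h1 : K.sle S ⊤ := (AEC.sle_top hφ.mem_left).2 hS
  have h2 := (AEC.sle_map φ).2 h1
  have h3 : (⊤ : L.Substructure M).map φ.toHom = φ.toHom.range :=
    (Hom.range_eq_map _).symm
  rw [h3] at h2
  exact h2.le_of_le hφ

theorem map_comap (φ : M ↪[L] N) {T : L.Substructure N} (h : T ≤ φ.toHom.range) :
    (T.comap φ.toHom).map φ.toHom = T := by
  ext x
  constructor
  · rintro ⟨y, hy, rfl⟩
    exact hy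
  · intro hx
    obtain ⟨y, rfl⟩ := h hx
    exact ⟨y, hx, rfl⟩

theorem le_comap (φ : M ↪[L] N) (hφ : K.Emb φ) {T : L.Substructure N} (hT : K.le T)
    (h : T ≤ φ.toHom.range) : K.le (T.comap φ.toHom) := by
  rw [← AEC.sle_top hφ.mem_left, ← AEC.sle_map φ, map_comap φ h]
  have h3 : (⊤ : L.Substructure M).map φ.toHom = φ.toHom.range :=
    (Hom.range_eq_map _).symm
  rw [h3]
  exact AEC.sle_of_le_le h hT hφ

theorem map_le_range (φ : M ↪[L] N) (S : L.Substructure M) : S.map φ.toHom ≤ φ.toHom.range := by
  rintro _ ⟨y, -, rfl⟩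
  exact ⟨y, rfl⟩

theorem exists_push {X Y : Type u} (eM : Set X ≃o {S : L.Substructure M // K.le S})
    (eN : Set Y ≃o {S : L.Substructure N // K.le S}) (φ : M ↪[L] N) (hφ : K.Emb φ) :
    ∃ f : X ↪ Y, ∀ A, (eM A).1.map φ.toHom = (eN (f '' A)).1 := by
  obtain ⟨f, hf⟩ := exists_lower
    (fun A : Set X => eN.symm ⟨(eM A).1.map φ.toHom, le_map φ hφ (eM A).2⟩) (by
      intro A B
      rw [eN.symm.le_iff_le, ← eM.le_iff_le]
      exact Substructure.map_le_map_iff_of_injective (f := φ.toHom) φ.injective) (by
      intro A B hB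
      have h1 : eN B ≤ ⟨(eM A).1.map φ.toHom, le_map φ hφ (eM A).2⟩ := by
        rw [← eN.symm.le_iff_le, eN.symm_apply_apply]
        exact hB
      have h2 : (eN B).1 ≤ φ.toHom.range := le_trans (show (eN B).1 ≤ _ from h1)
        (map_le_range φ _)
      refine ⟨eM.symm ⟨(eN B).1.comap φ.toHom, le_comap φ hφ (eN B).2 h2⟩, ?_⟩
      simp only [OrderIso.apply_symm_apply]
      rw [OrderIso.symm_apply_eq]
      exact Subtype.ext (map_comap φ h2))
  refine ⟨f, fun A => ?_⟩
  rw [← hf A, OrderIso.apply_symm_apply]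

end

/-- A functor from linear orders to members of `K` and strong embeddings which separates
points. -/
structure PreFamily (K : AEC L) where
  obj : ∀ (I : Type u) [LinearOrder I], Type u
  str : ∀ (I : Type u) [LinearOrder I], L.Structure (obj I)
  map : ∀ {I J : Type u} [LinearOrder I] [LinearOrder J], (I ↪o J) → (obj I ↪[L] obj J)
  map_refl : ∀ {I : Type u} [LinearOrder I] (a : obj I), map (RelEmbedding.refl (· ≤ ·)) a = a
  map_trans : ∀ {I J M : Type u} [LinearOrder I] [LinearOrder J] [LinearOrder M] (i : I ↪o J)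
    (j : J ↪o M) (a : obj I), map (i.trans j) a = map j (map i a)
  emb : ∀ {I J : Type u} [LinearOrder I] [LinearOrder J] (f : I ↪o J), K.Emb (map f)
  sep : ∀ {I J : Type u} [LinearOrder I] [LinearOrder J] [Subsingleton I] [Nonempty I]
    (f g : I ↪o J), f ≠ g → (map f).toHom.range ≠ (map g).toHom.range

attribute [instance] PreFamily.str

namespace PreFamily

variable (P : PreFamily K)

theorem mem_obj (I : Type u) [LinearOrder I] : K.mem (P.obj I) :=
  (P.emb (RelEmbedding.refl (· ≤ ·) : I ↪o I)).mem_left

/-- The order embedding of a point. -/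
def pt {I : Type u} [LinearOrder I] (i : I) : PUnit.{u + 1} ↪o I where
  toFun _ := i
  inj' _ _ _ := rfl
  map_rel_iff' := by simp

theorem exists_points (hB : ∀ (I : Type u) [LinearOrder I], H227.IsBoolean K (P.obj I)) :
    ∃ (X : ∀ (I : Type u) [LinearOrder I], Type u)
      (e : ∀ (I : Type u) [LinearOrder I], Set (X I) ≃o {S : L.Substructure (P.obj I) // K.le S})
      (x : ∀ (I : Type u) [LinearOrder I], I ↪ X I)
      (f : ∀ {I J : Type u} [LinearOrder I] [LinearOrder J] (_ : I ↪o J), X I ↪ X J),
      (∀ {I J : Type u} [LinearOrder I] [LinearOrder J] (i : I ↪o J) (A : Set (X I)),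
        (e I A).1.map (P.map i).toHom = (e J (f i '' A)).1) ∧
      ∀ {I J : Type u} [LinearOrder I] [LinearOrder J] (i : I ↪o J) (a : I),
        f i (x I a) = x J (i a) := by
  classical
  choose X e using fun (I : Type u) (lo : LinearOrder I) => hB I
  have e' : ∀ (I : Type u) (lo : LinearOrder I), Set (X I lo) ≃o
      {S : L.Substructure (P.obj I) // K.le S} := fun I lo => (e I lo).some
  choose f hf using fun (I J : Type u) (lo : LinearOrder I) (lo' : LinearOrder J) (i : I ↪o J) =>
    exists_push (K := K) (e' I lo) (e' J lo') (P.map i) (P.emb i)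
  have hf1 : ∀ (I J : Type u) (lo : LinearOrder I) (lo' : LinearOrder J) (i : I ↪o J)
      (a : X I lo) (b : X J lo'), (e' I lo {a}).1.map (P.map i).toHom = (e' J lo' {b}).1 →
      f I J lo lo' i a = b := by
    intro I J lo lo' i a b h
    rw [hf, image_singleton] at h
    have h1 := (e' J lo').injective (Subtype.ext h)
    exact singleton_eq_singleton_iff.1 h1
  have hcomp : ∀ (I J T : Type u) (lo : LinearOrder I) (lo' : LinearOrder J)
      (lo'' : LinearOrder T) (i : I ↪o J) (j : J ↪o T) (a : X I lo),
      f J T lo' lo'' j (f I J lo lo' i a) = f I T lo lo'' (i.trans j) a := by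
    intro I J T lo lo' lo'' i j a
    symm
    apply hf1
    have h1 := hf I J lo lo' i {a}
    have h2 := hf J T lo' lo'' j {f I J lo lo' i a}
    rw [image_singleton] at h1 h2
    rw [← h2, ← h1, Substructure.map_map]
    congr 1
    ext y
    exact P.map_trans i j y
  obtain ⟨x0, hx0⟩ : ∃ x0 : X PUnit.{u + 1} inferInstance,
      f PUnit.{u + 1} (ULift.{u} Bool) inferInstance inferInstance (pt ⟨false⟩) x0 ≠
      f PUnit.{u + 1} (ULift.{u} Bool) inferInstance inferInstance (pt ⟨true⟩) x0 := by
    by_contra hc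
    push Not at hc
    refine P.sep (pt (⟨false⟩ : ULift.{u} Bool)) (pt ⟨true⟩) ?_ ?_
    · intro h
      have h' : false = true :=
        congrArg (fun g : PUnit.{u + 1} ↪o ULift.{u} Bool => (g PUnit.unit).down) h
      exact absurd h' (by decide)
    · have h1 : ∀ i : PUnit.{u + 1} ↪o ULift.{u} Bool, (P.map i).toHom.range =
          (e' _ _ (f _ _ inferInstance inferInstance i '' Set.univ)).1 := by
        intro i
        rw [← hf, Hom.range_eq_map]
        congr 1
        have h2 : (e' PUnit.{u + 1} inferInstance) ⊤ = ⟨⊤, K.le_refl (P.mem_obj _)⟩ := by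
          apply le_antisymm
          · exact le_top (a := ((e' PUnit.{u + 1} inferInstance) ⊤).1)
          · rw [← OrderIso.symm_apply_le]
            exact le_top
        exact (congrArg Subtype.val h2).symm
      rw [h1, h1]
      congr 2
      exact image_congr fun a _ => hc a
  have hinj : ∀ (I : Type u) (lo : LinearOrder I), Injective fun a : I =>
      f PUnit.{u + 1} I inferInstance lo (pt a) x0 := by
    intro I lo
    have key : ∀ a b : I, a < b → f PUnit.{u + 1} I inferInstance lo (pt a) x0 ≠
        f PUnit.{u + 1} I inferInstance lo (pt b) x0 := by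
      intro a b hab h
      let j : ULift.{u} Bool ↪o I := OrderEmbedding.ofStrictMono
        (fun z => if z.down then b else a) (by
          rintro ⟨z⟩ ⟨w⟩ hzw
          cases z <;> cases w
          · exact absurd hzw (lt_irrefl _)
          · simpa using hab
          · exact absurd (show true < false from hzw) (by decide)
          · exact absurd hzw (lt_irrefl _))
      have h1 : (pt (⟨false⟩ : ULift.{u} Bool)).trans j = pt a := by
        ext z
        rfl
      have h2 : (pt (⟨true⟩ : ULift.{u} Bool)).trans j = pt b := by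
        ext z
        rfl
      rw [← h1, ← h2, ← hcomp, ← hcomp] at h
      exact hx0 ((f _ _ _ _ j).injective h)
    intro a b h
    rcases lt_trichotomy a b with h1 | h1 | h1
    · exact absurd h (key a b h1)
    · exact h1
    · exact absurd h.symm (key b a h1)
  refine ⟨fun I lo => X I lo, fun I lo => e' I lo,
    fun I lo => ⟨_, hinj I lo⟩, fun {I J lo lo'} i => f I J lo lo' i,
    fun {I J lo lo'} i A => hf I J lo lo' i A, ?_⟩
  intro I J lo lo' i a
  change f I J lo lo' i (f PUnit.{u + 1} I inferInstance lo (pt a) x0) =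
    f PUnit.{u + 1} J inferInstance lo' (pt (i a)) x0
  rw [hcomp]
  rfl

include P in
/-- A functor which separates points gives a family. -/
theorem exists_ordFamily' (hB : ∀ (I : Type u) [LinearOrder I], H227.IsBoolean K (P.obj I)) :
    Nonempty (H227.OrdFamily K) := by
  classical
  obtain ⟨X, e, x, f, hf, hx⟩ := P.exists_points hB
  let T : ∀ (I : Type u) [LinearOrder I], L.Substructure (P.obj I) := fun I _ =>
    (e I (range (x I))).1
  have hT : ∀ (I : Type u) [LinearOrder I], K.le (T I) := fun I _ => (e I (range (x I))).2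
  have himg : ∀ {I J : Type u} [LinearOrder I] [LinearOrder J] (i : I ↪o J),
      (T I).map (P.map i).toHom = (e J (x J '' range i)).1 := by
    intro I J _ _ i
    rw [hf]
    congr 2
    ext y
    constructor
    · rintro ⟨_, ⟨a, rfl⟩, rfl⟩
      exact ⟨i a, ⟨a, rfl⟩, (hx i a).symm⟩
    · rintro ⟨_, ⟨a, rfl⟩, rfl⟩
      exact ⟨x I a, ⟨a, rfl⟩, hx i a⟩
  have hmaps : ∀ {I J : Type u} [LinearOrder I] [LinearOrder J] (i : I ↪o J) (a : T I),
      P.map i a.1 ∈ T J := by
    intro I J _ _ i a
    have h1 : P.map i a.1 ∈ (T I).map (P.map i).toHom := ⟨a.1, a.2, rfl⟩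
    rw [himg] at h1
    have h2 : e J (x J '' range i) ≤ e J (range (x J)) := (e J).monotone (image_subset_range _ _)
    exact h2 h1
  let m : ∀ {I J : Type u} [LinearOrder I] [LinearOrder J] (_ : I ↪o J), (T I ↪[L] T J) :=
    fun {I J} _ _ i => Embedding.codRestrict (T J) ((P.map i).comp (T I).subtype) (hmaps i)
  have hm : ∀ {I J : Type u} [LinearOrder I] [LinearOrder J] (i : I ↪o J) (a : T I),
      (m i a).1 = P.map i a.1 := fun i a => rfl
  have hrange : ∀ (I : Type u) [LinearOrder I] (A : Set I),
      (m (OrderEmbedding.subtype (· ∈ A))).toHom.range.map (T I).subtype.toHom =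
        (e I (x I '' A)).1 := by
    intro I _ A
    have h1 := himg (OrderEmbedding.subtype (· ∈ A))
    have h2 : range (OrderEmbedding.subtype (· ∈ A)) = A := Subtype.range_coe
    rw [h2] at h1
    rw [← h1]
    ext y
    constructor
    · rintro ⟨_, ⟨z, rfl⟩, rfl⟩
      exact ⟨z.1, z.2, rfl⟩
    · rintro ⟨z, hz, rfl⟩
      exact ⟨_, ⟨⟨z, hz⟩, rfl⟩, rfl⟩
  have hEmb : ∀ (I : Type u) [LinearOrder I], K.Emb (T I).subtype := fun I _ =>
    AEC.emb_subtype.2 (hT I)
  have hinj : ∀ (I : Type u) [LinearOrder I] (S S' : L.Substructure (T I)),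
      S.map (T I).subtype.toHom = S'.map (T I).subtype.toHom → S = S' := fun I _ S S' h =>
    Substructure.map_injective_of_injective (f := (T I).subtype.toHom)
      (Substructure.subtype_injective _) h
  have hcm : ∀ (I : Type u) [LinearOrder I] (S : L.Substructure (T I)),
      S = (S.map (T I).subtype.toHom).comap (T I).subtype.toHom := by
    intro I _ S
    ext y
    constructor
    · intro hy
      exact ⟨y, hy, rfl⟩
    · rintro ⟨z, hz, hzy⟩
      have : z = y := Subtype.ext hzy
      rwa [← this]
  refine ⟨{ obj := fun I _ => T I, str := fun I _ => inferInstance, map := fun i => m i,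
            map_refl := fun a => Subtype.ext (P.map_refl _),
            map_trans := fun i j a => Subtype.ext (P.map_trans _ _ _),
            strong := ?_, mono := ?_, fin := ?_ }⟩
  · intro I _ S
    constructor
    · intro hS
      have h1 := le_map (T I).subtype (hEmb I) hS
      refine ⟨{a | x I a ∈ (e I).symm ⟨_, h1⟩}, hinj I _ _ ?_⟩
      rw [hrange]
      have h2 : (e I).symm ⟨_, h1⟩ ⊆ range (x I) := by
        rw [OrderIso.symm_apply_le]
        rintro _ ⟨y, -, rfl⟩
        exact y.2
      have h3 : x I '' {a | x I a ∈ (e I).symm ⟨_, h1⟩} = (e I).symm ⟨_, h1⟩ := by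
        ext y
        constructor
        · rintro ⟨a, ha, rfl⟩
          exact ha
        · intro hy
          obtain ⟨a, rfl⟩ := h2 hy
          exact ⟨a, hy, rfl⟩
      rw [h3, OrderIso.apply_symm_apply]
    · rintro ⟨A, rfl⟩
      rw [hcm I (m (OrderEmbedding.subtype (· ∈ A))).toHom.range, hrange]
      refine le_comap (T I).subtype (hEmb I) (e I _).2 ?_
      rw [Substructure.range_subtype]
      exact (e I).monotone (image_subset_range _ _)
  · intro I _ A B h
    have h1 : (m (OrderEmbedding.subtype (· ∈ A))).toHom.range.map (T I).subtype.toHom ≤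
        (m (OrderEmbedding.subtype (· ∈ B))).toHom.range.map (T I).subtype.toHom :=
      Substructure.monotone_map h
    rw [hrange, hrange] at h1
    have h2 : e I (x I '' A) ≤ e I (x I '' B) := h1
    rw [(e I).le_iff_le] at h2
    exact (image_subset_image_iff (x I).injective).1 h2
  · intro I _ a
    let F : Finset I → L.Substructure (P.obj I) := fun s => (e I (x I '' (s : Set I))).1
    have hFm : Monotone F := fun s t hst => (e I).monotone (image_mono hst)
    have h1 : K.le (⨆ s, F s) := AEC.le_iSup_finset F hFm fun s => (e I _).2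
    have h2 : T I ≤ ⨆ s, F s := by
      have h3 : e I (range (x I)) ≤ ⟨_, h1⟩ := by
        rw [← OrderIso.le_symm_apply]
        rintro _ ⟨i, rfl⟩
        have h4 : e I (x I '' (({i} : Finset I) : Set I)) ≤ ⟨⨆ s, F s, h1⟩ := le_iSup F {i}
        rw [← OrderIso.le_symm_apply] at h4
        exact h4 ⟨i, by simp, rfl⟩
      exact h3
    have h3 := h2 a.2
    rw [Substructure.mem_iSup_of_directed (directed_of_isDirected_le hFm)] at h3
    obtain ⟨s, hs⟩ := h3
    refine ⟨(s : Set I), s.finite_toSet, ?_⟩
    change a.1 ∈ (e I (x I '' (s : Set I))).1 at hs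
    rw [← hrange] at hs
    obtain ⟨y, hy, hya⟩ := hs
    have : y = a := Subtype.ext hya
    rw [← this]
    exact hy

include P in
/-- A functor which separates points gives a family. -/
theorem exists_ordFamily (hB : ∀ (M : Type u) [L.Structure M], K.mem M → H227.IsBoolean K M) :
    Nonempty (H227.OrdFamily K) :=
  P.exists_ordFamily' fun I _ => hB _ (P.mem_obj I)

end PreFamily

end Vale.Agent.P307.Ow
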