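import Vale.Agent.P307.Ow.EM
import Vale.Agent.P307.H227.Inj

/-! The functor over linear orders for classes with arbitrarily large Boolean members. -/

universe u

open FirstOrder Cardinal Set Function Language

namespace Vale.Agent.P307.Ow

variable {L : Language.{u, u}} {K : AEC L}

theorem isBoolean_of_emb {M N : Type u} [L.Structure M] [L.Structure N] (φ : M ↪[L] N)
    (hφ : K.Emb φ) (h : H227.IsBoolean K N) : H227.IsBoolean K M := by
  obtain ⟨X, ⟨e⟩⟩ := h
  let A : Set X := e.symm ⟨φ.toHom.range, hφ⟩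
  have hA : e A = ⟨φ.toHom.range, hφ⟩ := e.apply_symm_apply _
  have hle : ∀ B : Set A, (e (Subtype.val '' B)).1 ≤ φ.toHom.range := by
    intro B
    have h1 : e (Subtype.val '' B) ≤ e A := e.monotone (by
      rintro _ ⟨a, -, rfl⟩
      exact a.2)
    rw [hA] at h1
    exact h1
  have hsub : ∀ S : {S : L.Substructure M // K.le S},
      e.symm ⟨S.1.map φ.toHom, le_map φ hφ S.2⟩ ⊆ A := by
    intro S
    rw [OrderIso.symm_apply_le, hA]
    exact map_le_range φ S.1
  refine ⟨A, ⟨{ toFun := fun B => ⟨(e (Subtype.val '' B)).1.comap φ.toHom,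
                  le_comap φ hφ (e _).2 (hle B)⟩
                invFun := fun S => {a | a.1 ∈ e.symm ⟨S.1.map φ.toHom, le_map φ hφ S.2⟩}
                left_inv := ?_, right_inv := ?_, map_rel_iff' := ?_ }⟩⟩
  · intro B
    have h1 : (⟨((e (Subtype.val '' B)).1.comap φ.toHom).map φ.toHom, le_map φ hφ
        (le_comap φ hφ (e _).2 (hle B))⟩ : {S : L.Substructure N // K.le S}) =
        e (Subtype.val '' B) := Subtype.ext (map_comap φ (hle B))
    ext a
    simp only [mem_ofPred_eq]
    rw [h1, e.symm_apply_apply]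
    constructor
    · rintro ⟨b, hb, hba⟩
      rwa [← Subtype.ext hba]
    · intro ha
      exact ⟨a, ha, rfl⟩
  · intro S
    apply Subtype.ext
    have h1 : (Subtype.val '' {a : A | a.1 ∈ e.symm ⟨S.1.map φ.toHom, le_map φ hφ S.2⟩} :
        Set X) = e.symm ⟨S.1.map φ.toHom, le_map φ hφ S.2⟩ := by
      ext x
      constructor
      · rintro ⟨a, ha, rfl⟩
        exact ha
      · intro hx
        exact ⟨⟨x, hsub S hx⟩, hx, rfl⟩
    simp only [h1, e.apply_symm_apply]
    ext y
    constructor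
    · rintro ⟨z, hz, hzy⟩
      rwa [← φ.injective hzy]
    · intro hy
      exact ⟨y, hy, rfl⟩
  · intro B B'
    change (e (Subtype.val '' B)).1.comap φ.toHom ≤ (e (Subtype.val '' B')).1.comap φ.toHom ↔ B ⊆ B'
    constructor
    · intro h
      have h1 := Substructure.monotone_map (f := φ.toHom) h
      rw [map_comap φ (hle B), map_comap φ (hle B')] at h1
      have h2 : e (Subtype.val '' B) ≤ e (Subtype.val '' B') := h1
      rw [e.le_iff_le] at h2
      exact (image_subset_image_iff Subtype.val_injective).1 h2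
    · intro h x hx
      exact (e.monotone (image_mono h)) hx

theorem PreFamily.large (P : PreFamily K) (κ : Cardinal.{u}) :
    ∃ (J : Type u) (_ : LinearOrder J), κ ≤ #(P.obj J) := by
  classical
  by_contra hc
  push Not at hc
  let J : Type u := (Order.succ ((2 : Cardinal.{u}) ^ κ)).ord.ToType
  have h1 := hc J inferInstance
  have h2 : #J ≤ #(Set (P.obj J)) :=
    mk_le_of_injective (f := fun j : J => ((P.map (PreFamily.pt j)).toHom.range : Set (P.obj J)))
      (by
        intro i j hij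
        by_contra hne
        refine P.sep (PreFamily.pt i) (PreFamily.pt j) ?_ (SetLike.coe_injective hij)
        intro h
        exact hne (congrArg (fun g : PUnit.{u + 1} ↪o J => g PUnit.unit) h))
  rw [mk_set, mk_ord_toType] at h2
  have h3 : (2 : Cardinal.{u}) ^ #(P.obj J) ≤ 2 ^ κ :=
    power_le_power_left two_ne_zero h1.le
  exact absurd (h2.trans h3) (not_le.2 (Order.lt_succ _))

theorem PreFamily.isBoolean (P : PreFamily K)
    (hcat : ∀ a : Cardinal.{u}, ∃ κ, a ≤ κ ∧ K.CategoricalIn κ)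
    (hbool : ∀ a : Cardinal.{u}, ∃ (M : Type u) (_ : L.Structure M), K.mem M ∧ a ≤ #M ∧
      H227.IsBoolean K M) (I : Type u) [LinearOrder I] : H227.IsBoolean K (P.obj I) := by
  classical
  have hK : K.IsLS K.LS := AEC.isLS_LS K
  obtain ⟨κ, hκ, hcκ⟩ := hcat (max K.LS #(P.obj I))
  have hκ0 : ℵ₀ ≤ κ := hK.1.trans ((le_max_left _ _).trans hκ)
  -- a strong extension of `P.obj I` of cardinality at least `κ`
  obtain ⟨J, hJ, hJκ⟩ := P.large κ
  let T : Type u := I ⊕ₗ J
  let iI : I ↪o T := H227.lft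
  let iJ : J ↪o T := H227.rgt
  have hT : κ ≤ #(P.obj T) := hJκ.trans (mk_le_of_injective (P.map iJ).injective)
  obtain ⟨A, hA⟩ := le_mk_iff_exists_set.1 hT
  obtain ⟨S, hS1, hS2, hS3⟩ := hK.2.2 (P.obj T) (P.mem_obj T) (A ∪ range (P.map iI))
  have hSκ : #S = κ := by
    apply le_antisymm
    · refine hS3.trans (add_le_of_le hκ0 ?_ ((le_max_left _ _).trans hκ))
      refine (mk_union_le _ _).trans (add_le_of_le hκ0 hA.le (mk_range_le.trans ?_))
      exact (le_max_right _ _).trans hκ
    · rw [← hA]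
      exact mk_le_mk_of_subset (subset_union_left.trans hS2)
  -- a Boolean member of cardinality `κ`
  obtain ⟨M, _, hM1, hM2, hM3⟩ := hbool κ
  obtain ⟨A', hA'⟩ := le_mk_iff_exists_set.1 hM2
  obtain ⟨S', hS'1, hS'2, hS'3⟩ := hK.2.2 M hM1 A'
  have hS'κ : #S' = κ := by
    apply le_antisymm
    · exact hS'3.trans (add_le_of_le hκ0 hA'.le ((le_max_left _ _).trans hκ))
    · rw [← hA']
      exact mk_le_mk_of_subset hS'2
  have hB' : H227.IsBoolean K S' :=
    isBoolean_of_emb S'.subtype (AEC.emb_subtype.2 hS'1) hM3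
  obtain ⟨e⟩ := hcκ.2 S S' (K.mem_of_le _ hS1).1 (K.mem_of_le _ hS'1).1 hSκ hS'κ
  have hB : H227.IsBoolean K S :=
    isBoolean_of_emb e.toEmbedding (AEC.Emb.of_equiv e (K.mem_of_le _ hS1).1) hB'
  let ψ : P.obj I ↪[L] S := Embedding.codRestrict S (P.map iI) fun x =>
    hS2 (Or.inr ⟨x, rfl⟩)
  have hψ : K.Emb ψ := by
    refine AEC.Emb.of_comp (g := S.subtype) (AEC.emb_subtype.2 hS1) ?_
    have h1 : S.subtype.comp ψ = P.map iI := by
      apply Language.Embedding.ext
      intro x
      rfl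
    rw [h1]
    exact P.emb iI
  exact isBoolean_of_emb ψ hψ hB

/-- **Row (I)**, for classes with arbitrarily large Boolean members. -/
theorem exists_ordFamily_of_large (K : AEC L)
    (hcat : ∀ a : Cardinal.{u}, ∃ κ, a ≤ κ ∧ K.CategoricalIn κ)
    (hbool : ∀ a : Cardinal.{u}, ∃ (M : Type u) (_ : L.Structure M), K.mem M ∧ a ≤ #M ∧
      H227.IsBoolean K M) : Nonempty (H227.OrdFamily K) := by
  obtain ⟨P⟩ := exists_preFamily K fun χ => by
    obtain ⟨M, h1, h2, h3, -⟩ := hbool χ
    exact ⟨M, h1, h2, h3⟩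
  exact P.exists_ordFamily' fun I _ => P.isBoolean hcat hbool I

end Vale.Agent.P307.Ow
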