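import Mathlib.SetTheory.Cardinal.Arithmetic
import Mathlib.SetTheory.Cardinal.Cofinality.Club
import Mathlib.Order.Hom.Basic
import Mathlib.Algebra.Group.Basic

/-! Contravariant functors from linear orders to groups, with glueing along chains and with
moves. -/

universe u

open Cardinal Set Function

namespace Vale.Agent.P307.Ow

/-- The inclusion of a subset of a linear order. -/
abbrev sub {I : Type u} [LinearOrder I] (s : Set I) : s ↪o I := OrderEmbedding.subtype (· ∈ s)

/-- The inclusion of subsets of a linear order. -/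
def inc {I : Type u} [LinearOrder I] {s t : Set I} (h : s ⊆ t) : s ↪o t where
  toFun x := ⟨x.1, h x.2⟩
  inj' _ _ hxy := Subtype.ext (congrArg (fun z : t => z.1) hxy)
  map_rel_iff' := Iff.rfl

/-- A contravariant functor from linear orders to groups, with glueing along well-ordered chains
of subsets which cover, and with moves: for every injection `f`, which is increasing on the set
`B`, the elements `b` over the target have pullbacks `a` along `f`, which are trivial on the
preimages of the sets on which `b` is trivial, and which are given by the functor on `B`. -/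
structure OSys where
  Γ : ∀ (X : Type u) [LinearOrder X], Type u
  grp : ∀ (X : Type u) [LinearOrder X], Group (Γ X)
  res : ∀ {X Y : Type u} [LinearOrder X] [LinearOrder Y], (X ↪o Y) → Γ Y → Γ X
  res_mul : ∀ {X Y : Type u} [LinearOrder X] [LinearOrder Y] (f : X ↪o Y) (a b : Γ Y),
    res f (a * b) = res f a * res f b
  res_refl : ∀ {X : Type u} [LinearOrder X] (a : Γ X),
    res (RelEmbedding.refl (· ≤ ·) : X ↪o X) a = a
  res_trans : ∀ {X Y Z : Type u} [LinearOrder X] [LinearOrder Y] [LinearOrder Z]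
    (f : X ↪o Y) (g : Y ↪o Z) (a : Γ Z), res f (res g a) = res (f.trans g) a
  glue : ∀ {Y ι : Type u} [LinearOrder Y] [LinearOrder ι] [WellFoundedLT ι] [Nonempty ι]
    (s : ι → Set Y) (hs : Monotone s), (∀ y, ∃ i, y ∈ s i) → ∀ a : ∀ i, Γ (s i),
    (∀ i j (h : i ≤ j), res (inc (hs h)) (a j) = a i) →
    ∃ b : Γ Y, ∀ i, res (sub (s i)) b = a i
  ext : ∀ {Y ι : Type u} [LinearOrder Y] [LinearOrder ι] [WellFoundedLT ι] [Nonempty ι]
    (s : ι → Set Y), Monotone s → (∀ y, ∃ i, y ∈ s i) → ∀ a b : Γ Y,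
    (∀ i, res (sub (s i)) a = res (sub (s i)) b) → a = b
  mv : ∀ {X Y : Type u} [LinearOrder X] [LinearOrder Y] (f : X → Y) (B : Set X), Injective f →
    (∀ x ∈ B, ∀ y ∈ B, f x ≤ f y ↔ x ≤ y) → ∀ b : Γ Y, ∃ a : Γ X,
      (∀ (w : Set X) (v : Set Y), MapsTo f w v → res (sub v) b = 1 → res (sub w) a = 1) ∧
      ∀ e : B ↪o Y, (∀ x, e x = f x.1) → res (sub B) a = res e b

attribute [instance] OSys.grp

/-- What the bridge needs. -/
def OSys.Flasque (S : OSys.{u}) : Prop :=
  ∀ C : Set Cardinal.{u}, (∀ a, ∃ κ ∈ C, a ≤ κ) →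
    ∃ k : ℕ → Cardinal.{u}, StrictMono k ∧ (∀ n, k n ∈ C) ∧ ℵ₀ ≤ k 0 ∧
      (∀ (n : ℕ) (X Y Z : Type u) [LinearOrder X] [LinearOrder Y] [LinearOrder Z]
        (i : X ↪o Y) (j : Y ↪o Z), #X = k n → #Y = k (n + 1) → #Z = k (n + 2) →
        ∀ g : S.Γ Y, ∃ h : S.Γ Z, S.res (i.trans j) h = S.res i g) ∧
      ∀ (X Y : Type u) [LinearOrder X] [LinearOrder Y] (i : X ↪o Y), #X = #Y →
        (⨆ n, k n) ≤ #X → Surjective (S.res i)

end Vale.Agent.P307.Ow
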