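import Vale.Agent.P307.Ow.Sys

/-! Stable images and solutions at the levels: order version. -/

universe u

namespace Vale.Agent.P307.Ow

open Cardinal Set Function Sys Tw

variable {S : Sys.{u}} {h : Cardinal.{u} → Cardinal.{u}} {Y : Type u} [LinearOrder Y] {ι : Type}
  {t : Set Y} {c : Y → Option ι}

/-- The function `h` bounds the sizes of extensions of coloured objects which do not have
extensions of all sizes. -/
def IsHanf (S : Sys.{u}) (h : Cardinal.{u} → Cardinal.{u}) : Prop :=
  ∀ (C : Type) [Finite C] (X : Type u) [LinearOrder X] (c : X → C) (F J : Set C) (δ : S.Γ X),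
    Ext c F J δ (h #X) → ∀ b, Ext c F J δ b

theorem exists_isHanf (S : Sys.{u}) : ∃ h, IsHanf S h := by
  obtain ⟨h, hh⟩ := exists_hanf S
  exact ⟨h, fun C _ X _ c F J δ => hh c F J δ⟩

/-- The order embedding of a type in the set of all its elements. -/
def toU (X : Type u) [LinearOrder X] : X ↪o ↥(Set.univ : Set X) where
  toFun x := ⟨x, mem_univ x⟩
  inj' _ _ hxy := congrArg (fun z : ↥(Set.univ : Set X) => z.1) hxy
  map_rel_iff' := Iff.rfl

theorem stable (hh : IsHanf S h) [Finite ι] (V : Lev h t c) {k n : ℕ} (hk : V.k0 ≤ k)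
    (hn : k + 1 ≤ n) (δ : S.Γ (V.V (k + 1)))
    (hδ : Kern (fun y : V.V (k + 1) => c y) (range some) δ) :
    ∃ δ' : S.Γ (V.V n), Kern (fun y : V.V n => c y) (range some) δ' ∧
      S.r (V.mono ((Nat.le_succ k).trans hn)) δ' = S.r (V.mono (Nat.le_succ k)) δ := by
  classical
  have hkn : k < n := hn
  have e1 : Ext (fun y : V.V k => c y) (range some) V.J (S.r (V.mono (Nat.le_succ k)) δ)
      (lam h (k + 1)) := by
    refine ⟨V.V (k + 1), inferInstance, fun y => c y, inc (V.mono (Nat.le_succ k)), δ,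
      fun x => rfl, rfl, hδ, ?_, ?_⟩
    · intro y hy
      exact ⟨⟨y.1, V.full _ (V.sub _ y.2) hy k hk⟩, rfl⟩
    · intro a ha
      rw [← V.cardJ a ha (k + 1)]
      apply mk_le_of_injective (f := fun y : {y // y ∈ V.V (k + 1) ∧ c y = a} =>
        (⟨⟨y.1, y.2.1⟩, y.2.2⟩ : {y : V.V (k + 1) // c y = a}))
      intro y y' hy
      simp only [Subtype.mk.injEq] at hy
      exact Subtype.ext hy
  have e2 := hh _ _ _ _ _ _ (e1.mono (by rw [V.card]; exact hanf_le k)) (lam h n)
  obtain ⟨Z, _, c', i, δ', h1, h2, h3, h4, h5⟩ := e2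
  have hri : ∀ a, #{z : {z : Z // c' z = a} // ¬ (z.1 ∉ range i)} ≤ lam h k := by
    intro a
    rw [← V.card k]
    have : ∀ z : {z : {z : Z // c' z = a} // ¬ (z.1 ∉ range i)}, ∃ y, i y = z.1.1 := fun z =>
      not_not.1 z.2
    choose g hg using this
    apply mk_le_of_injective (f := g)
    intro z z' hz
    apply Subtype.ext
    apply Subtype.ext
    rw [← hg z, ← hg z', hz]
  have hf : ∀ a : Option ι, a ∈ V.J →
      Nonempty ({y : V.V n // c y = a} ↪ {z : {z : Z // c' z = a} // z.1 ∉ range i}) := by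
    intro a ha
    apply embed_compl (aleph0_le_lam n) (lam_strictMono hkn) (h5 a ha) (hri a)
    rw [← V.card n]
    exact mk_subtype_le _
  obtain ⟨f⟩ : Nonempty (∀ a : Option ι, a ∈ V.J →
      ({y : V.V n // c y = a} ↪ {z : {z : Z // c' z = a} // z.1 ∉ range i})) :=
    ⟨fun a ha => (hf a ha).some⟩
  have hJ : ∀ y : V.V n, y.1 ∉ V.V k → c y ∈ V.J := by
    intro y hy
    by_contra hc
    exact hy (V.full _ (V.sub _ y.2) hc k hk)
  let j0 : V.V n → Z := fun y =>
    if hy : y.1 ∈ V.V k then i ⟨y.1, hy⟩ else (f (c y) (hJ y hy) ⟨y, rfl⟩).1.1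
  have j0k : ∀ (y : V.V n) (hy : y.1 ∈ V.V k), j0 y = i ⟨y.1, hy⟩ := fun y hy => dif_pos hy
  have j0n : ∀ (y : V.V n) (hy : y.1 ∉ V.V k), j0 y = (f (c y) (hJ y hy) ⟨y, rfl⟩).1.1 :=
    fun y hy => dif_neg hy
  have hc : ∀ y, c' (j0 y) = c y := by
    intro y
    by_cases hy : y.1 ∈ V.V k
    · rw [j0k y hy, h1]
    · rw [j0n y hy]
      exact (f (c y) (hJ y hy) ⟨y, rfl⟩).1.2
  have hnr : ∀ (y : V.V n) (hy : y.1 ∉ V.V k), j0 y ∉ range i := by
    intro y hy
    rw [j0n y hy]
    exact (f (c y) (hJ y hy) ⟨y, rfl⟩).2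
  have hinj : Injective j0 := by
    intro y y' hyy
    by_cases hy : y.1 ∈ V.V k
    · by_cases hy' : y'.1 ∈ V.V k
      · rw [j0k y hy, j0k y' hy'] at hyy
        have := i.injective hyy
        simp only [Subtype.mk.injEq] at this
        exact Subtype.ext this
      · exfalso
        apply hnr y' hy'
        rw [← hyy, j0k y hy]
        exact ⟨_, rfl⟩
    · by_cases hy' : y'.1 ∈ V.V k
      · exfalso
        apply hnr y hy
        rw [hyy, j0k y' hy']
        exact ⟨_, rfl⟩
      · have hcc : c y = c y' := by rw [← hc, ← hc, hyy]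
        rw [j0n y hy, j0n y' hy'] at hyy
        have key : ∀ (a a' : Option ι) (ha : a ∈ V.J) (ha' : a' ∈ V.J) (hy : c y = a)
            (hy' : c y' = a'), a = a' → (f a ha ⟨y, hy⟩).1.1 = (f a' ha' ⟨y', hy'⟩).1.1 →
            y = y' := by
          intro a a' ha ha' hy hy' haa hff
          subst haa
          have := (f a ha).injective (Subtype.ext (Subtype.ext hff))
          simpa using this
        exact key _ _ _ _ rfl rfl hcc hyy
  obtain ⟨δ'', hk1, hk2⟩ := S.mv j0 {y : V.V n | y.1 ∈ V.V k} hinj (by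
    intro x hx y hy
    rw [j0k x hx, j0k y hy, i.le_iff_le]
    rfl) δ'
  refine ⟨δ'', ?_, ?_⟩
  · intro a ha W _ g hg
    have hk3 := hk1 {y | c y.1 ≠ a} {z | c' z ≠ a} (fun y hy => by
      change c' (j0 y) ≠ a
      rw [hc]
      exact hy) (h3 a ha _ (sub _) fun w => w.2)
    let g' : W ↪o ↥{y : V.V n | c y.1 ≠ a} :=
      { toFun := fun w => ⟨g w, hg w⟩
        inj' := fun w w' hw => g.injective
          (congrArg (fun z : ↥{y : V.V n | c y.1 ≠ a} => z.1) hw)
        map_rel_iff' := fun {w w'} => g.le_iff_le }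
    have hk4 := congrArg (S.res g') hk3
    rw [res_one, S.res_trans] at hk4
    exact hk4
  · let e : ↥{y : V.V n | y.1 ∈ V.V k} ↪o Z :=
      { toFun := fun y => i ⟨y.1.1, y.2⟩
        inj' := fun y y' hy => by
          have h6 := i.injective hy
          simp only [Subtype.mk.injEq] at h6
          exact Subtype.ext (Subtype.ext h6)
        map_rel_iff' := fun {y y'} => i.le_iff_le }
    have hk5 := hk2 e fun x => (j0k x.1 x.2).symm
    let k' : V.V k ↪o ↥{y : V.V n | y.1 ∈ V.V k} :=
      { toFun := fun y => ⟨⟨y.1, V.mono hkn.le y.2⟩, y.2⟩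
        inj' := fun y y' hy => Subtype.ext
          (congrArg (fun z : ↥{y : V.V n | y.1 ∈ V.V k} => z.1.1) hy)
        map_rel_iff' := Iff.rfl }
    have hk6 := congrArg (S.res k') hk5
    rw [S.res_trans, S.res_trans] at hk6
    have h7 : k'.trans e = i := by
      ext y
      rfl
    rw [h7, h2] at hk6
    exact hk6

/-- The family `γ` of elements on the faces of `t` agrees on the intersections. -/
def Compat (γ : ∀ j : ι, S.Γ ↥(t ∩ face c j)) : Prop :=
  ∀ i j, S.r (s := t ∩ (face c i ∩ face c j)) (inter_subset_inter_right _ inter_subset_left)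
    (γ i) = S.r (inter_subset_inter_right _ inter_subset_right) (γ j)

/-- The element `e` on `s` agrees with the family `γ` on the faces in `T`. -/
def Agree (γ : ∀ j : ι, S.Γ ↥(t ∩ face c j)) (T : Set ι) {s : Set Y} (hs : s ⊆ t) (e : S.Γ s) :
    Prop :=
  ∀ j ∈ T, S.r (s := s ∩ face c j) inter_subset_left e =
    S.r (inter_subset_inter_left _ hs) (γ j)

theorem level_exists [Finite ι] (V : Lev h t c) (γ : ∀ j : ι, S.Γ ↥(t ∩ face c j))
    (hγ : Compat γ) (T : Finset ι) : ∀ k, ∃ e : S.Γ (V.V k), Agree γ T (V.sub k) e := by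
  classical
  induction T using Finset.induction_on with
  | empty => exact fun k => ⟨1, fun j hj => by simp at hj⟩
  | @insert j T hjT ih =>
    intro k
    obtain ⟨e, he⟩ := ih (k + 1)
    have hkk : V.V k ⊆ V.V (k + 1) := V.mono (Nat.le_succ k)
    let β : S.Γ ↥(V.V (k + 1) ∩ face c j) :=
      S.r (inter_subset_inter_left _ (V.sub _)) (γ j) * (S.r inter_subset_left e)⁻¹
    have hβ : ∀ i ∈ T, S.r (s := V.V (k + 1) ∩ (face c j ∩ face c i))
        (inter_subset_inter_right _ inter_subset_left) β = 1 := by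
      intro i hi
      have h1 := hγ j i
      have h2 := he i (by simpa using hi)
      have h3 := congrArg (S.r (s := V.V (k + 1) ∩ (face c j ∩ face c i))
        (inter_subset_inter_left _ (V.sub _))) h1
      have h4 := congrArg (S.r (s := V.V (k + 1) ∩ (face c j ∩ face c i))
        (inter_subset_inter_right _ inter_subset_right)) h2
      rw [r_r, r_r] at h3 h4
      change S.r _ (_ * _⁻¹) = 1
      rw [r_mul, r_inv, r_r, r_r, h4, h3, mul_inv_cancel]
    -- the moving map
    obtain ⟨f⟩ : Nonempty (V.V k ↪ {a : {y // y ∈ V.V (k + 1) ∧ c y = none} // a.1 ∉ V.V k}) := by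
      apply embed_compl (aleph0_le_lam (h := h) (k + 1)) (lam_lt_succ k)
      · rw [V.cardJ none V.base]
      · rw [← V.card k]
        apply mk_le_of_injective (f := fun a :
          {a : {y // y ∈ V.V (k + 1) ∧ c y = none} // ¬ (a.1 ∉ V.V k)} =>
            (⟨a.1.1, not_not.1 a.2⟩ : V.V k))
        intro a a' haa
        simp only [Subtype.mk.injEq] at haa
        exact Subtype.ext (Subtype.ext haa)
      · rw [V.card]
        exact (lam_lt_succ k).le
    let ε0 : V.V k → ↥(V.V (k + 1) ∩ face c j) := fun y =>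
      if hy : c y = some j then ⟨(f y).1.1, (f y).1.2.1, by
        change c _ ≠ _
        rw [(f y).1.2.2]
        simp⟩
      else ⟨y.1, hkk y.2, hy⟩
    have ε1 : ∀ (y : V.V k), c y = some j → (ε0 y).1 = (f y).1.1 := fun y hy => by
      simp only [ε0]
      rw [dif_pos hy]
    have ε2 : ∀ (y : V.V k), c y ≠ some j → (ε0 y).1 = y.1 := fun y hy => by
      simp only [ε0]
      rw [dif_neg hy]
    have hinj : Injective ε0 := by
      intro y y' hyy
      have hyy' := congrArg Subtype.val hyy
      by_cases hy : c y = some j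
      · by_cases hy' : c y' = some j
        · rw [ε1 y hy, ε1 y' hy'] at hyy'
          exact f.injective (Subtype.ext (Subtype.ext hyy'))
        · rw [ε1 y hy, ε2 y' hy'] at hyy'
          exact absurd y'.2 (hyy' ▸ (f y).2)
      · by_cases hy' : c y' = some j
        · rw [ε2 y hy, ε1 y' hy'] at hyy'
          exact absurd y.2 (hyy' ▸ (f y').2)
        · rw [ε2 y hy, ε2 y' hy'] at hyy'
          exact Subtype.ext hyy'
    obtain ⟨α, hα1, hα2⟩ := S.mv ε0 {y : V.V k | c y.1 ≠ some j} hinj (by
      intro x hx y hy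
      rw [← Subtype.coe_le_coe, ε2 x hx, ε2 y hy]
      rfl) β
    refine ⟨α * S.r hkk e, ?_⟩
    intro i hi
    rw [Finset.coe_insert, mem_insert_iff] at hi
    rcases eq_or_ne i j with rfl | hij
    · rw [r_mul, r_r]
      let e' : ↥{y : V.V k | c y.1 ≠ some i} ↪o ↥(V.V (k + 1) ∩ face c i) :=
        { toFun := fun y => ⟨y.1.1, hkk y.1.2, y.2⟩
          inj' := fun y y' hy => Subtype.ext (Subtype.ext
            (congrArg (fun z : ↥(V.V (k + 1) ∩ face c i) => z.1) hy))
          map_rel_iff' := Iff.rfl }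
      have h5 := hα2 e' fun x => Subtype.ext (ε2 x.1 x.2).symm
      let k' : ↥(V.V k ∩ face c i) ↪o ↥{y : V.V k | c y.1 ≠ some i} :=
        { toFun := fun y => ⟨⟨y.1, y.2.1⟩, y.2.2⟩
          inj' := fun y y' hy => Subtype.ext
            (congrArg (fun z : ↥{y : V.V k | c y.1 ≠ some i} => z.1.1) hy)
          map_rel_iff' := Iff.rfl }
      have h6 := congrArg (S.res k') h5
      rw [S.res_trans, S.res_trans] at h6
      have h7 : S.r (s := V.V k ∩ face c i) inter_subset_left α =
          S.r (inter_subset_inter_left _ hkk) β := h6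
      rw [h7]
      change S.r (inter_subset_inter_left _ hkk) (_ * _⁻¹) * _ = _
      rw [r_mul, r_inv, r_r, r_r, inv_mul_cancel_right]
    · have hiT : i ∈ T := by
        rcases hi with h | h
        · exact absurd h hij
        · simpa using h
      rw [r_mul, r_r]
      have hm : MapsTo ε0 {y : V.V k | c y.1 ≠ some i}
          {z : ↥(V.V (k + 1) ∩ face c j) | c z.1 ≠ some i} := by
        intro y hyi
        change c (ε0 y).1 ≠ some i
        by_cases hy : c y.1 = some j
        · rw [ε1 y hy, (f _).1.2.2]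
          simp
        · rw [ε2 y hy]
          exact hyi
      have h5 : S.res (sub {z : ↥(V.V (k + 1) ∩ face c j) | c z.1 ≠ some i}) β = 1 := by
        let k' : ↥{z : ↥(V.V (k + 1) ∩ face c j) | c z.1 ≠ some i} ↪o
            ↥(V.V (k + 1) ∩ (face c j ∩ face c i)) :=
          { toFun := fun z => ⟨z.1.1, z.1.2.1, z.1.2.2, z.2⟩
            inj' := fun y y' hy => Subtype.ext (Subtype.ext
              (congrArg (fun z : ↥(V.V (k + 1) ∩ (face c j ∩ face c i)) => z.1) hy))
            map_rel_iff' := Iff.rfl }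
        have h6 := congrArg (S.res k') (hβ i hiT)
        rw [res_one, res_r] at h6
        exact h6
      have h6 := hα1 _ _ hm h5
      let k'' : ↥(V.V k ∩ face c i) ↪o ↥{y : V.V k | c y.1 ≠ some i} :=
        { toFun := fun y => ⟨⟨y.1, y.2.1⟩, y.2.2⟩
          inj' := fun y y' hy => Subtype.ext
            (congrArg (fun z : ↥{y : V.V k | c y.1 ≠ some i} => z.1.1) hy)
          map_rel_iff' := Iff.rfl }
      have h7 := congrArg (S.res k'') h6
      rw [res_one, S.res_trans] at h7
      have h8 : S.r (s := V.V k ∩ face c i) inter_subset_left α = 1 := h7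
      rw [h8, one_mul]
      have h7 := congrArg (S.r (s := V.V k ∩ face c i) (inter_subset_inter_left _ hkk))
        (he i (by simpa using hiT))
      rw [r_r, r_r] at h7
      exact h7

end Vale.Agent.P307.Ow
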