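import Vale.Agent.P307.Ow.Ladder

/-! Glueing along directed covers follows from glueing along well-ordered chains: order version. -/

universe u

namespace Vale.Agent.P307.Ow

open Cardinal Set Function

namespace OSys

variable (S : OSys.{u})

/-- Restriction between subsets of one set. -/
def r {Y : Type u} [LinearOrder Y] {s t : Set Y} (h : s ⊆ t) (a : S.Γ t) : S.Γ s :=
  S.res (inc h) a

variable {S}

theorem r_r {Y : Type u} [LinearOrder Y] {s t v : Set Y} (h : s ⊆ t) (h' : t ⊆ v) (a : S.Γ v) :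
    S.r h (S.r h' a) = S.r (h.trans h') a := by
  unfold r
  rw [S.res_trans]
  rfl

theorem r_self {Y : Type u} [LinearOrder Y] {s : Set Y} (h : s ⊆ s) (a : S.Γ s) : S.r h a = a :=
  S.res_refl a

/-- The identification of a subset with its preimage in a larger subset. -/
def pre {Y : Type u} [LinearOrder Y] {s t : Set Y} (h : s ⊆ t) : s ↪o ↥{x : t | x.1 ∈ s} where
  toFun x := ⟨⟨x.1, h x.2⟩, x.2⟩
  inj' _ _ hxy := Subtype.ext (congrArg (fun z : ↥{x : t | x.1 ∈ s} => z.1.1) hxy)
  map_rel_iff' := Iff.rfl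

/-- The inverse of `pre`. -/
def unpre {Y : Type u} [LinearOrder Y] (s t : Set Y) : ↥{x : t | x.1 ∈ s} ↪o s where
  toFun x := ⟨x.1.1, x.2⟩
  inj' _ _ hxy := Subtype.ext (Subtype.ext (congrArg (fun z : s => z.1) hxy))
  map_rel_iff' := Iff.rfl

theorem glue' {Y : Type u} [LinearOrder Y] {ι : Type u} [LinearOrder ι] [WellFoundedLT ι]
    [Nonempty ι] (s : ι → Set Y) (t : Set Y) (h : ∀ i, s i ⊆ t) (hc : ∀ y ∈ t, ∃ i, y ∈ s i)
    (hm : Monotone s) (a : ∀ i, S.Γ (s i)) (ha : ∀ i j (h : i ≤ j), S.r (hm h) (a j) = a i) :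
    ∃ b : S.Γ t, ∀ i, S.r (h i) b = a i := by
  obtain ⟨b, hb⟩ := S.glue (Y := t) (fun i => {x : t | x.1 ∈ s i})
    (fun i j hij x hx => hm hij hx) (fun y => hc y.1 y.2)
    (fun i => S.res (unpre (s i) t) (a i)) (by
      intro i j hij
      rw [← ha i j hij]
      unfold r
      rw [S.res_trans, S.res_trans]
      rfl)
  refine ⟨b, fun i => ?_⟩
  have h1 := congrArg (S.res (pre (h i))) (hb i)
  rw [S.res_trans, S.res_trans] at h1
  have h2 : (pre (h i)).trans (unpre (s i) t) = (RelEmbedding.refl (· ≤ ·) : s i ↪o s i) := by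
    ext x
    rfl
  rw [h2, S.res_refl] at h1
  exact h1

theorem sep' {Y : Type u} [LinearOrder Y] {ι : Type u} [LinearOrder ι] [WellFoundedLT ι]
    [Nonempty ι] (s : ι → Set Y) (t : Set Y) (h : ∀ i, s i ⊆ t) (hc : ∀ y ∈ t, ∃ i, y ∈ s i)
    (hm : Monotone s) (a b : S.Γ t) (hab : ∀ i, S.r (h i) a = S.r (h i) b) : a = b := by
  refine S.ext (Y := t) (fun i => {x : t | x.1 ∈ s i})
    (fun i j hij x hx => hm hij hx) (fun y => hc y.1 y.2) a b fun i => ?_
  have h1 := congrArg (S.res (unpre (s i) t)) (hab i)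
  unfold r at h1
  rw [S.res_trans, S.res_trans] at h1
  exact h1

theorem existsUnique_section {Y ι : Type u} [LinearOrder Y] [Nonempty ι] (s : ι → Set Y)
    (hd : Directed (· ⊆ ·) s) (a : ∀ i, S.Γ (s i))
    (ha : ∀ i j (h : s i ⊆ s j), S.r h (a j) = a i) :
    ∀ (κ : Cardinal.{u}) (w : Set Y), #w = κ → w ⊆ ⋃ i, s i →
      ∃! p : S.Γ w, ∀ i (v : Set Y) (h1 : v ⊆ w) (h2 : v ⊆ s i), S.r h1 p = S.r h2 (a i) := by
  have hall : ∀ (i j : ι) (v : Set Y) (h1 : v ⊆ s i) (h2 : v ⊆ s j),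
      S.r h1 (a i) = S.r h2 (a j) := by
    intro i j v h1 h2
    obtain ⟨k, hk, hk'⟩ := hd i j
    rw [← ha i k hk, ← ha j k hk', r_r, r_r]
  intro κ
  induction κ using WellFoundedLT.induction with
  | ind κ ih =>
  intro w hw hws
  rcases lt_or_ge κ ℵ₀ with hfin | hinf
  · have hwf : w.Finite := by
      rw [← hw, lt_aleph0_iff_set_finite] at hfin
      exact hfin
    obtain ⟨i, hi⟩ : ∃ i, w ⊆ s i := by
      obtain ⟨i, hi⟩ := hd.exists_mem_subset_of_finset_subset_biUnion (s := hwf.toFinset)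
        (by simpa using hws)
      exact ⟨i, by simpa using hi⟩
    refine ⟨S.r hi (a i), ?_, ?_⟩
    · intro j v h1 h2
      rw [r_r]
      exact hall _ _ _ _ _
    · intro p hp
      have := hp i w Subset.rfl hi
      rwa [r_self] at this
  · obtain ⟨e⟩ : Nonempty (w ≃ (#w).ord.ToType) := by
      rw [← Cardinal.eq, mk_ord_toType]
    have hinf' : ℵ₀ ≤ #w := by rwa [hw]
    have hne : Nonempty (#w).ord.ToType := by
      rw [← mk_ne_zero_iff, mk_ord_toType]
      exact (aleph0_pos.trans_le hinf').ne'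
    let W : (#w).ord.ToType → Set Y := fun α => {y | ∃ h : y ∈ w, e ⟨y, h⟩ ≤ α}
    have hWw : ∀ α, W α ⊆ w := fun α y hy => hy.1
    have hWm : Monotone W := fun α β hαβ y hy => ⟨hy.1, hy.2.trans hαβ⟩
    have hWc : ∀ y ∈ w, ∃ α, y ∈ W α := fun y hy => ⟨_, hy, le_rfl⟩
    have hWcard : ∀ α, #(W α) < κ := by
      intro α
      have h1 : W α ⊆ (fun β => (e.symm β).1) '' Iic α := by
        rintro y ⟨hy, hy'⟩
        exact ⟨e ⟨y, hy⟩, hy', by simp⟩
      refine (mk_le_mk_of_subset h1).trans_lt (mk_image_le.trans_lt ?_)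
      have h2 := mk_Iic_lt α (by simp) (by rwa [mk_ord_toType])
      rw [mk_ord_toType] at h2
      exact h2.trans_eq hw
    choose p hp hpu using fun α => ih _ (hWcard α) (W α) rfl ((hWw α).trans hws)
    have hpp : ∀ α β (h : α ≤ β), S.r (hWm h) (p β) = p α := by
      intro α β h
      refine hpu α _ fun i v h1 h2 => ?_
      rw [r_r]
      exact hp β i v _ h2
    obtain ⟨q, hq'⟩ := glue' W w hWw hWc hWm p hpp
    refine ⟨q, ?_, ?_⟩
    · intro i v h1 h2
      apply sep' (fun α => v ∩ W α) v (fun α => inter_subset_left)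
      · intro y hy
        obtain ⟨α, hα⟩ := hWc y (h1 hy)
        exact ⟨α, hy, hα⟩
      · exact fun α β h => inter_subset_inter_right _ (hWm h)
      · intro α
        rw [r_r, r_r]
        have h3 := hp α i (v ∩ W α) inter_subset_right (inter_subset_left.trans h2)
        rw [← hq' α, r_r] at h3
        exact h3
    · intro q' hq2
      apply sep' W w hWw hWc hWm
      intro α
      rw [hq' α]
      refine hpu α _ fun i v h1 h2 => ?_
      rw [r_r]
      exact hq2 i v _ h2

/-- The functor with glueing along directed covers. -/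
def toSys (S : OSys.{u}) : Sys.{u} where
  Γ := S.Γ
  grp := S.grp
  res := S.res
  res_mul := S.res_mul
  res_refl := S.res_refl
  res_trans := S.res_trans
  glue {Y _ ι _} s t h hc hd a ha := by
    have h1 : t ⊆ ⋃ i, s i := fun y hy => mem_iUnion.2 (hc y hy)
    obtain ⟨p, hp, -⟩ := existsUnique_section (S := S) s hd a ha _ t rfl h1
    refine ⟨p, fun i => ?_⟩
    have := hp i (s i) (h i) Subset.rfl
    rw [r_self] at this
    exact this
  sep {Y _ ι _} s t h hc hd a b hab := by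
    have h1 : t ⊆ ⋃ i, s i := fun y hy => mem_iUnion.2 (hc y hy)
    have h2 := existsUnique_section (S := S) s hd (fun i => S.r (h i) a)
      (fun i j hij => r_r _ _ _) _ t rfl h1
    refine h2.unique (fun i v h3 h4 => (r_r _ _ _).symm) (fun i v h3 h4 => ?_)
    have h5 : S.r (h i) a = S.r (h i) b := hab i
    rw [h5, r_r]
  mv := S.mv

end OSys

end Vale.Agent.P307.Ow
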