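import Vale.Agent.P307.Ow.Base

/-! Mittag-Leffler: order version. -/

universe u

namespace Vale.Agent.P307.Ow

open Cardinal Set Function Sys Tw

/-- A torsor over the kernels, on the subsets of `t`. -/
structure Tor (S : Sys.{u}) {Y : Type u} [LinearOrder Y] {ι : Type} (t : Set Y) (c : Y → Option ι)
    extends Tw.Sheaf Y where
  act : ∀ {s : Set Y}, {g : S.Γ s // Kern (fun y : s => c y) (range some) g} → P s → P s
  r_act : ∀ {s s' : Set Y} (h : s ⊆ s')
    (g : {g : S.Γ s' // Kern (fun y : s' => c y) (range some) g})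
    (g' : {g : S.Γ s // Kern (fun y : s => c y) (range some) g}) (_ : g'.1 = S.r h g.1) (p : P s'),
    r h (act g p) = act g' (r h p)
  diff : ∀ {s : Set Y} (_ : s ⊆ t) (p q : P s), ∃ g, act g p = q

variable {S : Sys.{u}} {h : Cardinal.{u} → Cardinal.{u}} {Y : Type u} [LinearOrder Y] {ι : Type}
  {t : Set Y}
  {c : Y → Option ι}

theorem Kern.r {s s' : Set Y} (h : s ⊆ s') {g : S.Γ s'}
    (hg : Kern (fun y : s' => c y) (range some) g) :
    Kern (fun y : s => c y) (range some) (S.r h g) := by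
  intro a ha W _ f hf
  rw [res_r]
  exact hg a ha W _ hf

theorem Tor.exists_th (E : Tor S t c) (hh : IsHanf S h) [Finite ι] (V : Lev h t c)
    (hne : ∀ k, Nonempty (E.P (V.V k))) : Nonempty (E.P t) := by
  have step : ∀ (k : ℕ) (_ : V.k0 ≤ k) (f : E.P (V.V (k + 1))), ∃ f' : E.P (V.V (k + 2)),
      E.r (V.mono (by omega : k ≤ k + 2)) f' = E.r (V.mono (Nat.le_succ k)) f := by
    intro k hk f
    obtain ⟨g⟩ := hne (k + 2)
    obtain ⟨w, hw⟩ := E.diff (V.sub _) (E.r (V.mono (Nat.le_succ (k + 1))) g) f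
    obtain ⟨w', h1, h2⟩ := stable hh V hk (Nat.le_succ (k + 1)) w.1 w.2
    refine ⟨E.act ⟨w', h1⟩ g, ?_⟩
    rw [E.r_act (V.mono (by omega : k ≤ k + 2)) ⟨w', h1⟩
      ⟨S.r (V.mono (Nat.le_succ k)) w.1, Kern.r _ w.2⟩ h2.symm, ← hw,
      E.r_act (V.mono (Nat.le_succ k)) w ⟨S.r (V.mono (Nat.le_succ k)) w.1, Kern.r _ w.2⟩ rfl,
      E.r_r]
  choose st hst using step
  let F : ∀ n : ℕ, E.P (V.V (V.k0 + n + 1)) := fun n =>
    Nat.rec (motive := fun n => E.P (V.V (V.k0 + n + 1))) (hne _).some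
      (fun n f => st (V.k0 + n) (Nat.le_add_right _ _) f) n
  have hF : ∀ n, F (n + 1) = st (V.k0 + n) (Nat.le_add_right _ _) (F n) := fun n => rfl
  let e : ∀ n : ℕ, E.P (V.V (V.k0 + n)) := fun n => E.r (V.mono (Nat.le_succ _)) (F n)
  have he : ∀ n, E.r (V.mono (Nat.le_succ (V.k0 + n))) (e (n + 1)) = e n := by
    intro n
    simp only [e]
    rw [E.r_r]
    have := hst (V.k0 + n) (Nat.le_add_right _ _) (F n)
    rw [← hF] at this
    exact this
  have he2 : ∀ n m (hnm : n ≤ m), E.r (V.mono (by omega : V.k0 + n ≤ V.k0 + m)) (e m) = e n := by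
    intro n m hnm
    induction m, hnm using Nat.le_induction with
    | base =>
      rw [← he n, E.r_r]
    | succ m hm ih =>
      have h3 := congrArg (E.r (V.mono (by omega : V.k0 + n ≤ V.k0 + m))) (he m)
      rw [E.r_r, ih] at h3
      exact h3
  obtain ⟨b, -⟩ := E.glue (κ := ULift.{u} ℕ) (fun i => V.V (V.k0 + i.down)) t
    (fun i => V.sub _) (fun y hy => by
      obtain ⟨k, hk⟩ := V.cover y hy
      exact ⟨⟨k⟩, V.mono (Nat.le_add_left k V.k0) hk⟩)
    (fun i j => ⟨⟨max i.down j.down⟩, V.mono (by simp), V.mono (by simp)⟩)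
    (fun i => e i.down) (by
      intro i j hij
      have h1 : V.k0 + i.down ≤ V.k0 + j.down := by
        by_contra hc
        push Not at hc
        have h2 := mk_le_mk_of_subset hij
        rw [V.card, V.card] at h2
        exact absurd h2 (not_le.2 (lam_strictMono hc))
      exact he2 i.down j.down (by omega))
  exact ⟨b⟩

end Vale.Agent.P307.Ow
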