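import Vale.Agent.P307.Ow.OSys
import Vale.Agent.P307.Tw.Flasque

/-! Contravariant functors from linear orders to groups, with glueing along directed covers and
with moves, and coloured objects. -/

universe u

namespace Vale.Agent.P307.Ow

open Cardinal Set Function

@[simp] theorem inc_val {Y : Type u} [LinearOrder Y] {s t : Set Y} (h : s ⊆ t) (x : s) :
    (inc h x).1 = x.1 := rfl

theorem sub_apply {Y : Type u} [LinearOrder Y] (s : Set Y) (x : s) : sub s x = x.1 := rfl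

/-- A contravariant functor from linear orders to groups, with glueing along directed covers,
and with moves. -/
structure Sys where
  Γ : ∀ (X : Type u) [LinearOrder X], Type u
  grp : ∀ (X : Type u) [LinearOrder X], Group (Γ X)
  res : ∀ {X Y : Type u} [LinearOrder X] [LinearOrder Y], (X ↪o Y) → Γ Y → Γ X
  res_mul : ∀ {X Y : Type u} [LinearOrder X] [LinearOrder Y] (f : X ↪o Y) (a b : Γ Y),
    res f (a * b) = res f a * res f b
  res_refl : ∀ {X : Type u} [LinearOrder X] (a : Γ X), res (RelEmbedding.refl (· ≤ ·)) a = a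
  res_trans : ∀ {X Y Z : Type u} [LinearOrder X] [LinearOrder Y] [LinearOrder Z]
    (f : X ↪o Y) (g : Y ↪o Z) (a : Γ Z), res f (res g a) = res (f.trans g) a
  glue : ∀ {Y : Type u} [LinearOrder Y] {ι : Type u} [Nonempty ι] (s : ι → Set Y) (t : Set Y)
    (h : ∀ i, s i ⊆ t), (∀ y ∈ t, ∃ i, y ∈ s i) → Directed (· ⊆ ·) s → ∀ a : ∀ i, Γ (s i),
    (∀ i j (h : s i ⊆ s j), res (inc h) (a j) = a i) →
    ∃ b : Γ t, ∀ i, res (inc (h i)) b = a i
  sep : ∀ {Y : Type u} [LinearOrder Y] {ι : Type u} [Nonempty ι] (s : ι → Set Y) (t : Set Y)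
    (h : ∀ i, s i ⊆ t), (∀ y ∈ t, ∃ i, y ∈ s i) → Directed (· ⊆ ·) s → ∀ a b : Γ t,
    (∀ i, res (inc (h i)) a = res (inc (h i)) b) → a = b
  mv : ∀ {X Y : Type u} [LinearOrder X] [LinearOrder Y] (f : X → Y) (B : Set X), Injective f →
    (∀ x ∈ B, ∀ y ∈ B, f x ≤ f y ↔ x ≤ y) → ∀ b : Γ Y, ∃ a : Γ X,
      (∀ (w : Set X) (v : Set Y), MapsTo f w v → res (sub v) b = 1 → res (sub w) a = 1) ∧
      ∀ e : B ↪o Y, (∀ x, e x = f x.1) → res (sub B) a = res e b

attribute [instance] Sys.grp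

namespace Sys

variable (S : Sys.{u})

/-- Restriction between subsets of one set. -/
def r {Y : Type u} [LinearOrder Y] {s t : Set Y} (h : s ⊆ t) (a : S.Γ t) : S.Γ s :=
  S.res (inc h) a

variable {S}

section

variable {X Y Z : Type u} [LinearOrder X] [LinearOrder Y] [LinearOrder Z]

theorem res_one (f : X ↪o Y) : S.res f (1 : S.Γ Y) = 1 := by
  have h := S.res_mul f 1 1
  rw [mul_one] at h
  exact (mul_eq_left.1 h.symm)

theorem res_inv (f : X ↪o Y) (a : S.Γ Y) : S.res f a⁻¹ = (S.res f a)⁻¹ := by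
  rw [eq_inv_iff_mul_eq_one, ← S.res_mul, inv_mul_cancel, res_one]

theorem r_mul {s t : Set Y} (h : s ⊆ t) (a b : S.Γ t) :
    S.r h (a * b) = S.r h a * S.r h b := S.res_mul _ a b

theorem r_one {s t : Set Y} (h : s ⊆ t) : S.r h (1 : S.Γ t) = 1 := res_one _

theorem r_inv {s t : Set Y} (h : s ⊆ t) (a : S.Γ t) :
    S.r h a⁻¹ = (S.r h a)⁻¹ := res_inv _ a

theorem r_r {s t v : Set Y} (h : s ⊆ t) (h' : t ⊆ v) (a : S.Γ v) :
    S.r h (S.r h' a) = S.r (h.trans h') a := by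
  unfold r
  rw [S.res_trans]
  rfl

theorem r_self {s : Set Y} (h : s ⊆ s) (a : S.Γ s) : S.r h a = a :=
  S.res_refl a

theorem res_r {s t : Set Y} (h : s ⊆ t) (f : X ↪o s) (a : S.Γ t) :
    S.res f (S.r h a) = S.res (f.trans (inc h)) a := by
  unfold r
  rw [S.res_trans]

theorem r_res {s t : Set Y} (h : s ⊆ t) (f : t ↪o Z) (a : S.Γ Z) :
    S.r h (S.res f a) = S.res ((inc h).trans f) a := by
  unfold r
  rw [S.res_trans]

/-- The element `δ` restricts to `1` along all embeddings which avoid one of the colours in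
`F`. -/
def Kern {C : Type} (c : X → C) (F : Set C) (δ : S.Γ X) : Prop :=
  ∀ a ∈ F, ∀ (W : Type u) [LinearOrder W] (f : W ↪o X), (∀ w, c (f w) ≠ a) → S.res f δ = 1

/-- The coloured object `(X, c, δ)` has an extension in which the colours outside `J` do not grow
and the colours in `J` have at least `b` points. -/
def Ext {C : Type} (c : X → C) (F J : Set C) (δ : S.Γ X) (b : Cardinal.{u}) : Prop :=
  ∃ (Y : Type u) (_ : LinearOrder Y) (c' : Y → C) (i : X ↪o Y) (δ' : S.Γ Y),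
    (∀ x, c' (i x) = c x) ∧ S.res i δ' = δ ∧ Kern c' F δ' ∧ (∀ y, c' y ∉ J → y ∈ range i) ∧
    ∀ a ∈ J, b ≤ #{y // c' y = a}

theorem Ext.mono {C : Type} {c : X → C} {F J : Set C} {δ : S.Γ X}
    {b b' : Cardinal.{u}} (h : Ext c F J δ b) (hb : b' ≤ b) : Ext c F J δ b' := by
  obtain ⟨Y, _, c', i, δ', h1, h2, h3, h4, h5⟩ := h
  exact ⟨Y, _, c', i, δ', h1, h2, h3, h4, fun a ha => hb.trans (h5 a ha)⟩

theorem Kern.comp {C D : Type} (e : C ≃ D) {c : X → C} {F : Set C} {δ : S.Γ X}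
    (h : Kern c F δ) : Kern (e ∘ c) (e '' F) δ := by
  rintro _ ⟨a, ha, rfl⟩ W _ f hf
  exact h a ha W f fun w hw => hf w (by simp [hw])

theorem Ext.comp {C D : Type} (e : C ≃ D) {c : X → C} {F J : Set C} {δ : S.Γ X}
    {b : Cardinal.{u}} (h : Ext c F J δ b) : Ext (e ∘ c) (e '' F) (e '' J) δ b := by
  obtain ⟨Y, _, c', i, δ', h1, h2, h3, h4, h5⟩ := h
  refine ⟨Y, _, e ∘ c', i, δ', fun x => by simp [h1], h2, h3.comp e, fun y hy => h4 y fun hj =>
    hy ⟨_, hj, rfl⟩, ?_⟩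
  rintro _ ⟨a, ha, rfl⟩
  simpa using h5 a ha

theorem Ext.of_comp {C D : Type} (e : C ≃ D) {c : X → C} {F J : Set C} {δ : S.Γ X}
    {b : Cardinal.{u}} (h : Ext (e ∘ c) (e '' F) (e '' J) δ b) : Ext c F J δ b := by
  have h' := h.comp e.symm
  simpa [← comp_assoc] using h'

theorem Ext.iso {C : Type} (e : X ≃o Y) {c : X → C} {F J : Set C} {δ : S.Γ X}
    {b : Cardinal.{u}} (h : Ext c F J δ b) :
    Ext (c ∘ e.symm) F J (S.res e.symm.toOrderEmbedding δ) b := by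
  obtain ⟨Z, _, c', i, δ', h1, h2, h3, h4, h5⟩ := h
  refine ⟨Z, _, c', e.symm.toOrderEmbedding.trans i, δ', fun x => by simp [h1], ?_, h3, ?_, h5⟩
  · rw [← h2, S.res_trans]
  · intro y hy
    obtain ⟨x, hx⟩ := h4 y hy
    exact ⟨e x, by simp [hx]⟩

end

/-- The abstract Hanf function. -/
theorem exists_hanf (S : Sys.{u}) : ∃ h : Cardinal.{u} → Cardinal.{u}, ∀ {C : Type} [Finite C]
    {X : Type u} [LinearOrder X] (c : X → C) (F J : Set C) (δ : S.Γ X), Ext c F J δ (h #X) →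
    ∀ b, Ext c F J δ b := by
  let I : Cardinal.{u} → Type u := fun χ =>
    Σ n : ℕ, Σ lo : LinearOrder χ.out, (χ.out → Fin n) × Set (Fin n) × Set (Fin n) × @S.Γ χ.out lo
  have hb : ∀ (χ : Cardinal.{u}) (z : I χ), ∃ b : Cardinal.{u},
      @Ext S χ.out z.2.1 _ z.2.2.1 z.2.2.2.1 z.2.2.2.2.1 z.2.2.2.2.2 b →
      ∀ b', @Ext S χ.out z.2.1 _ z.2.2.1 z.2.2.2.1 z.2.2.2.2.1 z.2.2.2.2.2 b' := by
    intro χ z
    by_cases h : ∀ b', @Ext S χ.out z.2.1 _ z.2.2.1 z.2.2.2.1 z.2.2.2.2.1 z.2.2.2.2.2 b'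
    · exact ⟨0, fun _ => h⟩
    · push Not at h
      obtain ⟨b, hb⟩ := h
      exact ⟨b, fun h => absurd h hb⟩
  choose b hb using hb
  refine ⟨fun χ => ⨆ z, b χ z, ?_⟩
  intro C _ X _ c F J δ hE
  obtain ⟨n, ⟨e⟩⟩ := Finite.exists_equiv_fin C
  obtain ⟨f0⟩ : Nonempty (X ≃ (#X).out) := by
    rw [← Cardinal.eq, mk_out]
  let lo : LinearOrder (#X).out := LinearOrder.lift' f0.symm f0.symm.injective
  let f : X ≃o (#X).out := ⟨f0, by
    intro a b
    change f0.symm (f0 a) ≤ f0.symm (f0 b) ↔ _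
    simp⟩
  have h1 := (hE.comp e).iso f
  let z : I #X := ⟨n, lo, (e ∘ c) ∘ f.symm, e '' F, e '' J, S.res f.symm.toOrderEmbedding δ⟩
  have h2 : b #X z ≤ ⨆ z, b #X z := le_ciSup (bddAbove_of_small) z
  have h3 := hb #X z (h1.mono h2)
  intro b'
  have h4 := (h3 b').iso f.symm
  have h5 : S.res f.symm.symm.toOrderEmbedding (S.res f.symm.toOrderEmbedding δ) = δ := by
    rw [S.res_trans]
    have : f.symm.symm.toOrderEmbedding.trans f.symm.toOrderEmbedding =
        RelEmbedding.refl (· ≤ ·) := by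
      ext x
      simp
    rw [this, S.res_refl]
  have h6 : ((e ∘ c) ∘ f.symm) ∘ f.symm.symm = e ∘ c := by
    ext x
    simp
  change Ext (((e ∘ c) ∘ f.symm) ∘ f.symm.symm) (e '' F) (e '' J) _ b' at h4
  rw [h6] at h4
  change Ext (e ∘ c) (e '' F) (e '' J)
    (S.res f.symm.symm.toOrderEmbedding (S.res f.symm.toOrderEmbedding δ)) b' at h4
  rw [h5] at h4
  exact h4.of_comp e

end Sys

end Vale.Agent.P307.Ow
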